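import Vale.Agent.P281Z.Pb.Ex
import Vale.Agent.P281Z.Mf.Loc

/-!
# P281, block PB: toolbox for the projective space
-/

open scoped Manifold ContDiff Topology Matrix
open Set Filter Function
open Vale.Agent.P272.K (Cm Chart At)
open Vale.Agent.P285.H281.FD (Bd IsLB IsSec)
open Vale.Agent.P277Z (Hol at_chart trans_an hol_const)
open Vale.Agent.P277Z.Slc (dd Ind)

set_option linter.unusedSectionVars false

noncomputable section

namespace Vale.Agent.P281Z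

section gen

variable {m p : ℕ} {W Y : Type} [TopologicalSpace W] [ChartedSpace (Cm m) W]
  [IsManifold 𝓘(ℂ, Cm m) ω W] [TopologicalSpace Y] [ChartedSpace (Cm p) Y]
  [IsManifold 𝓘(ℂ, Cm p) ω Y] {y : W}

theorem prop_iff {k : ℕ} {v w : Cm k} (hw : w ≠ 0) :
    (∃ c : ℂ, v = c • w) ↔ ∀ a b, v a * w b = v b * w a := by
  refine ⟨fun ⟨c, h⟩ a b => by rw [h, Pi.smul_apply, Pi.smul_apply, smul_eq_mul, smul_eq_mul]; ring,
    fun h => ?_⟩
  obtain ⟨j, hj⟩ := Function.ne_iff.1 hw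
  exact ⟨v j / w j, funext fun a => by
    rw [Pi.smul_apply, smul_eq_mul, div_mul_eq_mul_div, ← h a j, mul_div_cancel_right₀ _ hj]⟩

theorem smul_ratio {k : ℕ} {c : ℂ} (hc : c ≠ 0) (v : Cm k) (a b : Fin k) :
    (c • v) a / (c • v) b = v a / v b := mul_div_mul_left _ _ hc

theorem ne_near {k : ℕ} {s : W → Cm k} (hs : ∀ a, Hol m (fun y => s y a) y) (h0 : s y ≠ 0) :
    ∀ᶠ y' in 𝓝 y, s y' ≠ 0 := (AnV.pi hs).cont.eventually_ne h0

/-- the factor between two proportional holomorphic vectors is holomorphic -/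
theorem hol_fac {k : ℕ} {s t : W → Cm k} {c : W → ℂ} (hs : ∀ a, Hol m (fun y => s y a) y)
    (ht : ∀ a, Hol m (fun y => t y a) y) (h0 : t y ≠ 0) (h : ∀ᶠ y' in 𝓝 y, s y' = c y' • t y') :
    Hol m c y := by
  obtain ⟨j, hj⟩ := Function.ne_iff.1 h0
  refine ((hs j).div (ht j) hj).congr ?_
  filter_upwards [h, (ht j).ne_near hj] with y' k1 k2
  rw [k1, Pi.smul_apply, smul_eq_mul, mul_div_cancel_right₀ _ k2]

/-- an immersion is detected by functions -/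
theorem imm_of_fun {f : W → Y} (hf : HolA m p f y) (h : ∀ e : Chart m W, At e y → ∀ ξ ≠ 0,
    ∃ a, Hol p a (f y) ∧ dd (fun y => a (f y)) e y ξ ≠ 0) : Imm m p f y := fun e e' he he' =>
  (injective_iff_map_eq_zero _).2 fun ξ hξ => of_not_not fun k => by
    obtain ⟨a, h1, h2⟩ := h e he ξ k
    exact h2 (by rw [dd_comp h1 hf he he', ContinuousLinearMap.comp_apply, hξ, map_zero])

/-- a map which factors through `F` has a larger kernel -/
theorem dd_fac {E : Type} [NormedAddCommGroup E] [NormedSpace ℂ E] {F : W → E} {G : E → Cm p}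
    {f : W → Y} {e : Chart m W} {e' : Chart p Y} (he : At e y) (hF : AnV m F y)
    (hG : AnalyticAt ℂ G (F y)) (h : ∀ᶠ y' in 𝓝 y, e' (f y') = G (F y')) {ξ : Cm m}
    (h0 : fderiv ℂ (fun z => F (e.symm z)) (e y) ξ = 0) : df f e e' y ξ = 0 := by
  have h1 : (fun z => e' (f (e.symm z))) =ᶠ[𝓝 (e y)] fun z => G (F (e.symm z)) := at_ev he h
  rw [df, h1.fderiv_eq, fderiv_fun_comp (e y) (by rw [he.left_inv]; exact hG.differentiableAt)
    (hF e he).differentiableAt, ContinuousLinearMap.comp_apply, h0, map_zero]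

theorem fderiv_ratio {k : ℕ} {s : W → Cm k} (hs : ∀ a, Hol m (fun y => s y a) y) {l : Fin k}
    (hl : s y l ≠ 0) {e : Chart m W} (he : At e y) {ξ : Cm m}
    (h : ∀ j, dd (fun y => s y j / s y l) e y ξ = 0) :
    fderiv ℂ (fun z => (fun j => s (e.symm z) j / s (e.symm z) l : Cm k)) (e y) ξ = 0 := by
  rw [fderiv_pi fun j => ((hs j).div (hs l) hl e he).differentiableAt]
  exact funext h

theorem ratio_eq {k : ℕ} (v : Cm k) (l : Fin k) : (fun j => v j / v l) = (v l)⁻¹ • v :=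
  funext fun j => by rw [Pi.smul_apply, smul_eq_mul, div_eq_inv_mul]

theorem Pos.kah {n : ℕ} {V : Mf n} {L : Bd V.X} (hL : IsLB n L) (h : Pos n L) (hK : P277Z.Pos.KAH) :
    V.Kah := by
  obtain ⟨ψ, h1, h2⟩ := h
  obtain ⟨χ, hχ, -⟩ := hK n V.X L.ι L.U ψ hL.isOpen hL.cover
    (fun i y hy e he => ⟨h1.smooth i e y he hy, h2 i e y he hy⟩) fun i j y hi hj e he => by
      have k : (fun z => ψ i (e.symm z) - ψ j (e.symm z)) =ᶠ[𝓝 (e y)]
          fun z => Real.log (‖L.g i j (e.symm z)‖ ^ 2) :=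
        (at_ev he (((hL.isOpen i).inter (hL.isOpen j)).eventually_mem ⟨hi, hj⟩)).mono fun z hz => by
          simp only [h1.change i j _ hz.1 hz.2, add_sub_cancel_left]
      exact ⟨(h1.smooth i e y he hi).sub (h1.smooth j e y he hj), by
        rw [P272.K.cHess_congr k, P272.K.cHess_log_norm_sq (hL.holo i j e y he hi hj)
          (by rw [he.left_inv]; exact hL.ne_zero i j y hi hj)]⟩
  exact ⟨χ, hχ⟩

end gen

namespace PS

variable {r : ℕ} (S : PS r) {v w : Cm (r + 1)} {p q : S.P.X} {h h' : S.H.ι} {c : ℂ}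

theorem xhol (hp : p ∈ S.H.U h) (a : Fin (r + 1)) : Hol r (fun p => S.x h p a) p :=
  fun e he => ((S.sec a).holo h e p he hp).analyticAt

theorem x_chg (hp : p ∈ S.H.U h) (hp' : p ∈ S.H.U h') : S.x h p = S.H.g h h' p • S.x h' p :=
  funext fun a => (S.sec a).change h h' p hp hp'

theorem pt_x' (hp : p ∈ S.H.U h) : S.pt (S.x h p) = p := by
  simpa only [one_smul] using S.pt_x h p 1 hp one_ne_zero

theorem x_pt' (hv : v ≠ 0) (hp : S.pt v ∈ S.H.U h) : ∃ c : ℂ, c ≠ 0 ∧ S.x h (S.pt v) = c • v :=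
  let ⟨c, k⟩ := S.x_pt v hv h hp
  ⟨c, fun h0 => S.xnz h _ hp (by rw [k, h0, zero_smul]), k⟩

theorem pt_smul (hc : c ≠ 0) (hv : v ≠ 0) : S.pt (c • v) = S.pt v := by
  obtain ⟨h, hp⟩ := S.lb.cover (S.pt v)
  obtain ⟨a, ha, k⟩ := S.x_pt' hv hp
  rw [← S.pt_x h _ (c * a⁻¹) hp (mul_ne_zero hc (inv_ne_zero ha)), k, smul_smul,
    inv_mul_cancel_right₀ ha]

theorem pt_eq_iff (hv : v ≠ 0) (hw : w ≠ 0) : S.pt v = S.pt w ↔ ∃ c : ℂ, v = c • w := by
  refine ⟨fun k => ?_, fun ⟨c, k⟩ => by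
    rw [k, S.pt_smul (fun h0 => hv (by rw [k, h0, zero_smul])) hw]⟩
  obtain ⟨h, hp⟩ := S.lb.cover (S.pt v)
  obtain ⟨a, ha, k1⟩ := S.x_pt' hv hp
  obtain ⟨b, k2⟩ := S.x_pt w hw h (k ▸ hp)
  exact ⟨a⁻¹ * b, by rw [mul_smul, ← k2, ← k, k1, inv_smul_smul₀ ha]⟩

theorem pt_eq_iff' (hv : v ≠ 0) (hw : w ≠ 0) :
    S.pt v = S.pt w ↔ ∀ a b, v a * w b = v b * w a := (S.pt_eq_iff hv hw).trans (prop_iff hw)

theorem surj (p : S.P.X) : ∃ v, v ≠ 0 ∧ S.pt v = p :=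
  let ⟨h, hp⟩ := S.lb.cover p
  ⟨_, S.xnz h p hp, S.pt_x' hp⟩

theorem ext (hp : p ∈ S.H.U h) (hq : q ∈ S.H.U h') (k : ∃ c : ℂ, S.x h p = c • S.x h' q) :
    p = q := by
  rw [← S.pt_x' hp, ← S.pt_x' hq]
  exact (S.pt_eq_iff (S.xnz h p hp) (S.xnz h' q hq)).2 k

theorem ratio (hv : v ≠ 0) (hp : S.pt v ∈ S.H.U h) (a b : Fin (r + 1)) :
    S.x h (S.pt v) a / S.x h (S.pt v) b = v a / v b :=
  let ⟨_, hc, k⟩ := S.x_pt' hv hp
  k ▸ smul_ratio hc v a b

theorem x_ne_iff (hv : v ≠ 0) (hp : S.pt v ∈ S.H.U h) (a : Fin (r + 1)) :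
    S.x h (S.pt v) a ≠ 0 ↔ v a ≠ 0 := by
  obtain ⟨c, hc, k⟩ := S.x_pt' hv hp
  rw [k, Pi.smul_apply, smul_eq_mul, mul_ne_zero_iff_left hc]

/-- the factor with `v = sc h v • x h (pt v)` -/
def sc (h : S.H.ι) (v : Cm (r + 1)) : ℂ := Classical.epsilon fun c => v = c • S.x h (S.pt v)

theorem sc_spec (hv : v ≠ 0) (hp : S.pt v ∈ S.H.U h) : v = S.sc h v • S.x h (S.pt v) :=
  let ⟨c, hc, k⟩ := S.x_pt' hv hp
  Classical.epsilon_spec (p := fun c : ℂ => v = c • S.x h (S.pt v))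
    ⟨c⁻¹, by rw [k, inv_smul_smul₀ hc]⟩

theorem sc_ne (hv : v ≠ 0) (hp : S.pt v ∈ S.H.U h) : S.sc h v ≠ 0 :=
  fun h0 => hv (by rw [S.sc_spec hv hp, h0, zero_smul])

theorem bpf : Bpf r S.H := fun p =>
  let ⟨h, hp⟩ := S.lb.cover p
  let ⟨a, ha⟩ := Function.ne_iff.1 (S.xnz h p hp)
  ⟨_, S.sec a, fun h' hp' h0 => ha (((S.sec a).change h h' p hp hp').trans (by
    rw [show S.x h' p a = 0 from h0, mul_zero]; rfl))⟩

theorem prj : S.P.Prj := ⟨S.H, S.lb, S.pos⟩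

variable {m : ℕ} {W : Type} [TopologicalSpace W] [ChartedSpace (Cm m) W]
  [IsManifold 𝓘(ℂ, Cm m) ω W] {s : W → Cm (r + 1)} {y : W}

theorem holA (hs : ∀ a, Hol m (fun y => s y a) y) (h0 : s y ≠ 0) :
    HolA m r (fun y => S.pt (s y)) y :=
  .of_an ((S.cont _ h0).comp (AnV.pi hs).cont) (at_chart y) (at_chart _)
    ((AnV.pi hs).cmp (S.an _ h0 _ (at_chart _)) _ (at_chart y))

theorem sc_hol (hs : ∀ a, Hol m (fun y => s y a) y) (h0 : s y ≠ 0) (hp : S.pt (s y) ∈ S.H.U h) :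
    Hol m (fun y => S.sc h (s y)) y :=
  hol_fac hs (fun a => (S.holA hs h0).hol (S.xhol hp a)) (S.xnz h _ hp) (by
    filter_upwards [ne_near hs h0, (S.holA hs h0).cont.eventually ((S.lb.isOpen h).mem_nhds hp)]
      with y' k1 k2 using S.sc_spec k1 k2)

/-- the kernel of the differential of `[s]` -/
theorem df_eq_zero (hs : ∀ a, Hol m (fun y => s y a) y) {l : Fin (r + 1)} (hl : s y l ≠ 0)
    {e : Chart m W} {e' : Chart r S.P.X} (he : At e y) (he' : At e' (S.pt (s y))) {ξ : Cm m} :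
    df (fun y => S.pt (s y)) e e' y ξ = 0 ↔ ∀ j, dd (fun y => s y j / s y l) e y ξ = 0 := by
  have h0 : s y ≠ 0 := Function.ne_iff.2 ⟨l, hl⟩
  refine ⟨fun k j => ?_, fun k => ?_⟩
  · obtain ⟨h, hp⟩ := S.lb.cover (S.pt (s y))
    rw [← P277Z.Slc.dd_congr (a := fun y => S.x h (S.pt (s y)) j / S.x h (S.pt (s y)) l) (by
      filter_upwards [ne_near hs h0, (S.holA hs h0).cont.eventually ((S.lb.isOpen h).mem_nhds hp)]
        with y' k1 k2 using S.ratio k1 k2 j l) he, dd_comp (f := fun y => S.pt (s y))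
      ((S.xhol hp j).div (S.xhol hp l) ((S.x_ne_iff h0 hp l).2 hl)) (S.holA hs h0) he he',
      ContinuousLinearMap.comp_apply, k, map_zero]
  · have h1 : ∀ {v : Cm (r + 1)}, v l ≠ 0 → S.pt (fun j => v j / v l) = S.pt v := fun hv => by
      rw [ratio_eq, S.pt_smul (inv_ne_zero hv) (Function.ne_iff.2 ⟨l, hv⟩)]
    refine dd_fac (F := fun y => (fun j => s y j / s y l : Cm (r + 1))) (G := fun w => e' (S.pt w))
      he (AnV.pi fun j => (hs j).div (hs l) hl) (S.an _ (Function.ne_iff.2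
        ⟨l, div_ne_zero hl hl⟩) e' (by rwa [h1 hl])) ?_
      (fderiv_ratio hs hl he k)
    filter_upwards [(hs l).ne_near hl] with y' k1
    rw [h1 k1]

theorem imm_iff (hs : ∀ a, Hol m (fun y => s y a) y) {l : Fin (r + 1)} (hl : s y l ≠ 0)
    {e : Chart m W} (he : At e y) : Imm m r (fun y => S.pt (s y)) y ↔
      ∀ ξ ≠ 0, ∃ j, dd (fun y => s y j / s y l) e y ξ ≠ 0 :=
  ⟨fun k ξ hξ => not_forall.1 fun k' => hξ ((injective_iff_map_eq_zero _).1
    (k e _ he (at_chart _)) ξ ((S.df_eq_zero hs hl he (at_chart _)).2 k')), fun k =>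
    .of_chart (S.holA hs (Function.ne_iff.2 ⟨l, hl⟩)) he (at_chart _)
      ((injective_iff_map_eq_zero _).2 fun ξ hξ => of_not_not fun k' =>
        let ⟨j, hj⟩ := k ξ k'
        hj ((S.df_eq_zero hs hl he (at_chart _)).1 hξ j))⟩

/-- the affine coordinates are coordinates -/
theorem ind (hp : p ∈ S.H.U h) {l : Fin (r + 1)} (hl : S.x h p l ≠ 0) :
    Ind r (fun (b : Fin r) p => S.x h p (l.succAbove b) / S.x h p l) p := by
  refine ⟨fun b => (S.xhol hp _).div (S.xhol hp l) hl, fun e he =>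
    (P277Z.Slc.ind_iff_surj _).2 (LinearMap.injective_iff_surjective.1
      ((injective_iff_map_eq_zero (ContinuousLinearMap.pi _).toLinearMap).2 fun ξ hξ =>
        of_not_not fun k => ?_))⟩
  obtain ⟨j, hj⟩ := (S.imm_iff (S.xhol hp) hl he).1 ((imm_id p).cng
    (((S.lb.isOpen h).eventually_mem hp).mono fun q hq => (S.pt_x' hq).symm)) ξ k
  induction j using Fin.succAboveCases l with
  | x =>
    rw [P277Z.Slc.dd_congr (b := fun _ => 1)
      (((S.xhol hp l).ne_near hl).mono fun q hq => div_self hq) he] at hj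
    exact hj (by rw [dd, fderiv_fun_const]; rfl)
  | p b => exact hj (congrFun hξ b)

/-- the universal property -/
theorem lift {κ : Type} {O : κ → Set W} (hO : ∀ b, IsOpen (O b)) (hc : ∀ y, ∃ b, y ∈ O b)
    {s : κ → W → Cm (r + 1)} (hs : ∀ b, ∀ y ∈ O b, ∀ a, Hol m (fun y => s b y a) y)
    (h0 : ∀ b, ∀ y ∈ O b, s b y ≠ 0)
    (chg : ∀ b b' y, y ∈ O b → y ∈ O b' → ∃ c : ℂ, s b y = c • s b' y) :
    ∃ φ : W → S.P.X, HolM m r φ ∧ ∀ b, ∀ y ∈ O b, φ y = S.pt (s b y) := by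
  choose β hβ using hc
  have key : ∀ b, ∀ y ∈ O b, S.pt (s (β y) y) = S.pt (s b y) := fun b y hy =>
    (S.pt_eq_iff (h0 _ y (hβ y)) (h0 b y hy)).2 (chg _ b y (hβ y) hy)
  exact ⟨fun y => S.pt (s (β y) y), fun y => (S.holA (hs _ y (hβ y)) (h0 _ y (hβ y))).cng
    (((hO _).eventually_mem (hβ y)).mono fun y' k => (key _ y' k).symm), key⟩

/-- the map defined by a linear system without base points -/
theorem lift_sec {L : Bd W} (hL : IsLB m L) {s : L.ι → W → Cm (r + 1)}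
    (hs : ∀ a, IsSec m L fun b y => s b y a) (h0 : ∀ b, ∀ y ∈ L.U b, s b y ≠ 0) :
    ∃ φ : W → S.P.X, HolM m r φ ∧ ∀ b, ∀ y ∈ L.U b, φ y = S.pt (s b y) :=
  S.lift hL.isOpen hL.cover (fun b y hy a e he => ((hs a).holo b e y he hy).analyticAt) h0
    fun b b' y k k' => ⟨_, funext fun a => (hs a).change b b' y k k'⟩

end PS

end Vale.Agent.P281Z
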