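import Vale.Agent.P281Z.Pb.Defs
import Vale.Agent.P277Z.Pos.All

/-!
# P281, block PB: the embedding theorem of Kodaira
-/

open scoped Manifold ContDiff Topology ComplexOrder
open Set Filter
open Vale.Agent.P272.K (Cm Chart At)
open Vale.Agent.P272.K.C2 (cHess_const)
open Vale.Agent.P301.H599 (LineBundle)
open Vale.Agent.P277Z.Pos (joA soft Jets)

noncomputable section

namespace Vale.Agent.P281Z.Pb

namespace Kode

theorem x_pt {r : ℕ} (S : PS r) {v : Cm (r + 1)} (hv : v ≠ 0) {h : S.H.ι} (hh : S.pt v ∈ S.H.U h) :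
    ∃ c : ℂ, c ≠ 0 ∧ S.x h (S.pt v) = c • v := by
  obtain ⟨c, hc⟩ := S.x_pt v hv h hh
  exact ⟨c, fun e => S.xnz h _ hh (by rw [hc, e, zero_smul]), hc⟩

theorem pt_smul {r : ℕ} (S : PS r) {v : Cm (r + 1)} (hv : v ≠ 0) {c : ℂ} (hc : c ≠ 0) :
    S.pt (c • v) = S.pt v := by
  obtain ⟨h, hh⟩ := S.lb.cover (S.pt v)
  obtain ⟨a, h1, h2⟩ := x_pt S hv hh
  rw [← S.pt_x h _ (c / a) hh (div_ne_zero hc h1), h2, smul_smul, div_mul_cancel₀ c h1]

end Kode

open Kode in
theorem kode : KODE := by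
  rintro n V L hL ⟨ψ, hψ, hpos⟩
  let L' : LineBundle n V.X L.ι := ⟨L.U, hL.isOpen, hL.cover, L.g,
    fun i j e y he hi hj => (hL.holo i j e y he hi hj).analyticAt, hL.ne_zero, hL.cocycle⟩
  have hJ : Jets L' univ := by
    have := joA n V.X L.ι L' univ ψ (fun _ => 0) 1 isOpen_univ
      ⟨fun i y _ hi e he => ⟨hψ.smooth i e y he hi, hpos i e y he hi⟩,
        fun i j y _ => hψ.change i j y⟩ (fun y _ e he => ⟨contDiffAt_const, by
          rw [cHess_const]
          exact Matrix.PosSemidef.zero⟩) (by simpa using isCompact_univ)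
    simpa using this
  obtain ⟨k, N, s, hk, hs, hE⟩ :=
    soft n V.X L.ι L' univ isOpen_univ hJ univ isCompact_univ Subset.rfl
  have hnz : ∀ b, ∀ y ∈ L.U b, (fun a => s a b y : Cm (N + 1)) ≠ 0 := fun b y hy e => by
    obtain ⟨l, hl⟩ := hE.nz y trivial b hy
    exact hl (congrFun e l)
  refine ⟨k, N, fun b y a => s a b y, hk, fun a => ⟨fun i e x he hi =>
    ((hs a).holo i e x he hi trivial).contDiffAt, fun i j x hi hj =>
      (hs a).change i j x hi hj trivial⟩, hnz, fun S => ?_⟩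
  choose b hb using hL.cover
  set φ : V.X → S.P.X := fun y => S.pt fun a => s a (b y) y with hφd
  have hφ : ∀ i, ∀ y ∈ L.U i, φ y = S.pt fun a => s a i y := fun i y hy => by
    rw [← pt_smul S (hnz i y hy) (pow_ne_zero k (hL.ne_zero _ _ y (hb y) hy))]
    exact congrArg S.pt (funext fun a => (hs a).change _ _ y (hb y) hy trivial)
  have hev : ∀ y (e : Chart n V.X), At e y → ∀ᶠ z in 𝓝 (e y), e.symm z ∈ L.U (b y) :=
    fun y e he => (e.tendsto_symm he.2).eventually ((hL.isOpen _).mem_nhds (hb y))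
  have hsa : ∀ y (e : Chart n V.X), At e y →
      AnalyticAt ℂ (fun z => (fun a => s a (b y) (e.symm z) : Cm (N + 1))) (e y) :=
    fun y e he => analyticAt_pi_iff.2 fun a => (hs a).holo _ e y he (hb y) trivial
  have hc : ∀ y (e : Chart n V.X), At e y → Tendsto (fun z => φ (e.symm z)) (𝓝 (e y)) (𝓝 (φ y)) :=
    fun y e he => by
      have h1 := (hsa y e he).continuousAt
      rw [ContinuousAt, e.left_inv he.2] at h1
      exact ((S.cont _ (hnz _ y (hb y))).tendsto.comp h1).congr'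
        ((hev y e he).mono fun z hz => (hφ _ _ hz).symm)
  have ha : ∀ y (e : Chart n V.X) (e' : Chart N S.P.X), At e y → At e' (φ y) →
      AnalyticAt ℂ (fun z => e' (φ (e.symm z))) (e y) := fun y e e' he he' =>
    (AnalyticAt.fun_comp (g := fun w => e' (S.pt w)) (by
      rw [e.left_inv he.2]
      exact S.an _ (hnz _ y (hb y)) e' he') (hsa y e he)).congr
        ((hev y e he).mono fun z hz => congrArg e' (hφ _ _ hz).symm)
  refine ⟨φ, ⟨fun y => ?_, fun y y' e => by_contra fun hne => ?_, fun y e e' he he' => ?_, rfl⟩, hφ⟩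
  · have he : At (chartAt (Cm n) y) y := ⟨chart_mem_atlas _ y, mem_chart_source _ y⟩
    refine contMDiffAt_iff.2 ⟨?_, (ha y _ _ he
      ⟨chart_mem_atlas _ _, mem_chart_source _ _⟩).contDiffAt.contDiffWithinAt⟩
    exact ((hc y _ he).comp ((chartAt (Cm n) y).continuousAt he.2)).congr'
      (((chartAt (Cm n) y).eventually_left_inverse he.2).mono fun x hx => congrArg φ hx)
  · obtain ⟨h, hh⟩ := S.lb.cover (φ y)
    obtain ⟨c, h1, h2⟩ := x_pt S (hnz _ y (hb y)) hh
    obtain ⟨c', h1', h2'⟩ := x_pt S (hnz _ y' (hb y')) (show φ y' ∈ _ from e ▸ hh)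
    have h3 : ∀ a, c * s a (b y) y = c' * s a (b y') y' := fun a =>
      (congrFun h2 a).symm.trans ((congrArg (S.x h · a) e).trans (congrFun h2' a))
    obtain ⟨l, m, h4⟩ := hE.sep y trivial y' trivial (Ne.symm hne) _ _ (hb y) (hb y')
    refine h4 (mul_left_cancel₀ h1 ?_)
    rw [← mul_assoc, ← mul_assoc, h3, h3]
    ring
  · refine (injective_iff_map_eq_zero _).2 fun v hv => ?_
    obtain ⟨l, hl⟩ := hE.nz y trivial _ (hb y)
    obtain ⟨h, hh⟩ := S.lb.cover (φ y)
    refine hE.imm y trivial _ l (hb y) hl e he v fun m => ?_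
    obtain ⟨c, h1, h2⟩ := x_pt S (hnz _ y (hb y)) hh
    have h3 : DifferentiableAt ℂ (fun w => S.x h (e'.symm w) m / S.x h (e'.symm w) l)
        (e' (φ (e.symm (e y)))) := by
      rw [e.left_inv he.2]
      refine (((S.sec m).holo h e' _ he' hh).analyticAt.fun_div
        ((S.sec l).holo h e' _ he' hh).analyticAt ?_).differentiableAt
      rw [e'.left_inv he'.2]
      exact (congrFun h2 l).trans_ne (mul_ne_zero h1 hl)
    have h4 : (fun z => s m (b y) (e.symm z) / s l (b y) (e.symm z)) =ᶠ[𝓝 (e y)]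
        (fun w => S.x h (e'.symm w) m / S.x h (e'.symm w) l) ∘ fun z => e' (φ (e.symm z)) := by
      filter_upwards [hev y e he, (hc y e he).eventually ((S.lb.isOpen h).mem_nhds hh),
        (hc y e he).eventually (e'.eventually_left_inverse he'.2)] with z k1 k2 k3
      rw [hφ _ _ k1] at k2
      obtain ⟨c, k4, k5⟩ := x_pt S (hnz _ _ k1) k2
      rw [Function.comp_apply, k3, hφ _ _ k1, k5]
      exact (mul_div_mul_left _ _ k4).symm
    rw [h4.fderiv_eq, fderiv_comp (f := fun z => e' (φ (e.symm z))) _ h3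
      (ha y e e' he he').differentiableAt, ContinuousLinearMap.comp_apply,
      show fderiv ℂ (fun z => e' (φ (e.symm z))) (e y) v = 0 from hv, map_zero]

end Vale.Agent.P281Z.Pb
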