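import Vale.Agent.P281Z.Pb.Ex
import Vale.Agent.P277Z.GH.KahM
import Vale.Agent.P277Z.Pos.Rb

/-!
# P281, block PB: the projective space
-/

open scoped Manifold ContDiff Topology Matrix
open Set Filter
open Vale.Agent.P272.K (Cm Chart At)
open Vale.Agent.P285.H281.FD (Bd IsLB IsSec)
open Vale.Agent.P277Z (Hol at_chart trans_an hol_const)
open Vale.Agent.P277Z.Slc (dd)
open Vale.Agent.P264Z (CP)
open Vale.Agent.P264Z.CP (rep ins aff)

noncomputable section

namespace Vale.Agent.P281Z.Pb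

/-- a line bundle whose sections define an immersion is positive -/
theorem pos_of_sec {n m : ℕ} {X : Type} [TopologicalSpace X] [ChartedSpace (Cm n) X] {L : Bd X}
    (hL : IsLB n L) {s : Fin m → L.ι → X → ℂ} (hs : ∀ a, IsSec n L (s a))
    (nz : ∀ i, ∀ x ∈ L.U i, ∃ a, s a i x ≠ 0)
    (h : ∀ i, ∀ x ∈ L.U i, ∀ e : Chart n X, At e x → ∀ ξ ≠ 0, ∃ k j, s k i x ≠ 0 ∧
      dd (fun y => s j i y / s k i y) e x ξ ≠ 0) : Pos n L := by
  have h1 : ∀ i (e : Chart n X) x, At e x → x ∈ L.U i →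
      ContDiffAt ℝ ∞ (fun z => Real.log (∑ a, ‖s a i (e.symm z)‖ ^ 2)) (e x) := fun i e x he hi =>
    P277Z.Ps.sm_log (fun a => ((hs a).holo i e x he hi).analyticAt)
      (by rw [he.left_inv]; exact nz i x hi)
  refine ⟨fun i x => Real.log (∑ a, ‖s a i x‖ ^ 2), ⟨h1, fun i j x hi hj => ?_⟩,
    fun i e x he hi => P277Z.Pos.RbAux.posDef_of_levi (P277Z.Ps.two (h1 i e x he hi))
      fun ξ hξ => ?_⟩
  · simpa only [Nat.cast_one, inv_one, one_mul] using P277Z.GH.Ka.log_change le_rfl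
      (hL.ne_zero i j x hi hj) (fun a => by rw [pow_one]; exact (hs a).change i j x hi hj)
      (nz j x hj)
  · obtain ⟨k, j, k1, k2⟩ := h i x hi e he ξ hξ
    exact P277Z.GH.Ka.fs_dir (F := fun a z => s a i (e.symm z))
      (fun a => ((hs a).holo i e x he hi).analyticAt) (by rw [he.left_inv]; exact k1) k2

namespace Ps

open Ex

variable {r : ℕ} {l m : Fin (r + 1)} {p : CP r}

/-- normalized homogeneous coordinates -/
def xx (m : Fin (r + 1)) (p : CP r) : Cm (r + 1) := ins m (CP.chart m p)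

variable (r) in
/-- the hyperplane bundle -/
def hb : Bd (CP r) where
  ι := Fin (r + 1)
  U m := (CP.chart m).source
  g m l p := xx m p l

theorem at_ch (h : p ∈ (CP.chart m).source) : At (CP.chart m) p := ⟨mem_range_self m, h⟩

theorem mk'_xx (h : p ∈ (CP.chart m).source) : mk' (xx m p) = p := by
  rw [xx, mk'_ins, (CP.chart m).left_inv h]

theorem xx_ne : xx m p ≠ 0 := CP.ins_ne_zero _ _

theorem xx_mk' {v : Cm (r + 1)} (hv : v ≠ 0) (h : mk' v ∈ (CP.chart m).source) :
    v = v m • xx m (mk' v) := by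
  rw [xx, chart_mk' m hv, CP.smul_ins_aff m ((src_mk' m hv).1 h)]

theorem xx_chg (h : p ∈ (CP.chart m).source) (h' : p ∈ (CP.chart l).source) :
    xx m p = xx m p l • xx l p := by
  have h1 := xx_mk' (m := l) (xx_ne (m := m) (p := p)) (by rwa [mk'_xx h])
  rwa [mk'_xx h] at h1

theorem hol_xx (h : p ∈ (CP.chart m).source) (a : Fin (r + 1)) : Hol r (fun p => xx m p a) p :=
  P277Z.hol_comp (at_ch h) (f := fun z => ins m z a) (analyticAt_pi_iff.1 (an_ins m _) a)

theorem hb_lb : IsLB r (hb r) where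
  isOpen m := (CP.chart m).open_source
  cover p := CP.exists_ne p
  holo _ l e _ he k _ := (hol_xx k l e he).contDiffAt
  ne_zero m l p k k' h0 := xx_ne ((xx_chg k k').trans (by rw [show xx m p l = 0 from h0, zero_smul]))
  cocycle _ _ l _ k k' _ := (congrFun (xx_chg k k') l).symm

theorem hb_sec (a : Fin (r + 1)) : IsSec r (hb r) fun h p => xx h p a :=
  ⟨fun _ e _ he k => (hol_xx k a e he).contDiffAt, fun _ _ _ k k' => congrFun (xx_chg k k') a⟩

theorem hb_pos : Pos r (hb r) :=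
  pos_of_sec hb_lb hb_sec (fun _ _ _ => Function.ne_iff.1 xx_ne) fun (m : Fin (r + 1)) p h e he ξ hξ => by
    obtain ⟨b, hb⟩ := Function.ne_iff.1 fun k : df (fun x => x) e (CP.chart m) p ξ = 0 =>
      hξ (imm_id p e _ he (at_ch h) (k.trans (map_zero _).symm))
    rw [df_apply (holM_id.at p) he (at_ch h)] at hb
    refine ⟨m, m.succAbove b, (CP.ins_same m _).trans_ne one_ne_zero, ?_⟩
    rw [show (fun y => xx m y (m.succAbove b) / xx m y m) = fun y => CP.chart m y b from
      funext fun y => by rw [xx, CP.ins_same, CP.ins_succAbove, div_one]]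
    exact hb

variable (r) in
/-- the projective space -/
def ps : PS r where
  P := ⟨CP r⟩
  H := hb r
  x := xx
  pt := mk'
  lb := hb_lb
  sec := hb_sec
  xnz _ _ _ := xx_ne
  x_pt v hv h k := ⟨(v h)⁻¹, (eq_inv_smul_iff₀ ((src_mk' h hv).1 k)).2 (xx_mk' hv k).symm⟩
  pt_x h p c k hc := (mk'_smul hc _).trans (mk'_xx k)
  cont v hv := cont_mk' hv
  an v hv := by
    rintro _ ⟨⟨m, rfl⟩, h⟩
    refine (an_aff ((src_mk' m hv).1 h)).congr ?_
    filter_upwards [isOpen_ne.mem_nhds hv] with w hw using (chart_mk' m hw).symm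
  pos := hb_pos
  conn := inferInstanceAs (ConnectedSpace (CP r))

end Ps

theorem psex : PSEX := fun r => ⟨Ps.ps r⟩

end Vale.Agent.P281Z.Pb
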