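import Vale.Agent.P281Z.Rs.Defs
import Vale.Agent.P277.H60.Z.XH

/-!
# P281, block PB: projective bundles (definitions, statements)
-/

open scoped Manifold ContDiff Topology Matrix
open Set Filter
open Vale.Agent.P272.K (Cm Chart At)
open Vale.Agent.P285.H281.FD (Bd IsLB IsSec)
open Vale.Agent.P277Z (Hol)
open Vale.Agent.P277 (RelAmple)
open Vale.Agent.P277.H60.Z (XH)
open Vale.Agent.P277.HD (pull)

noncomputable section

namespace Vale.Agent.P281Z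

/-- a holomorphic vector bundle of rank `ρ`; coordinates change by `v i = T i j *ᵥ v j` -/
structure VB (ρ : ℕ) {n : ℕ} (V : Mf n) where
  ι : Type
  U : ι → Set V.X
  T : ι → ι → V.X → Matrix (Fin ρ) (Fin ρ) ℂ
  isOpen : ∀ i, IsOpen (U i)
  cover : ∀ y, ∃ i, y ∈ U i
  hol : ∀ i j, ∀ y ∈ U i, y ∈ U j → ∀ a b, Hol n (fun y => T i j y a b) y
  self : ∀ i, ∀ y ∈ U i, T i i y = 1
  cocycle : ∀ i j k, ∀ y ∈ U i, y ∈ U j → y ∈ U k → T i j y * T j k y = T i k y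

/-- The bundle of the lines in `E`: `H` is the dual of the tautological bundle, the `x i a` are the
homogeneous coordinates over `U i`, and `pt i y v` is the line through `v` over `y`. -/
structure PB {n r : ℕ} {V : Mf n} (E : VB (r + 1) V) (N : ℕ) : Type 1 where
  P : Mf N
  pr : P.X → V.X
  H : Bd P.X
  x : E.ι → H.ι → P.X → Cm (r + 1)
  pt : E.ι → V.X → Cm (r + 1) → P.X
  dim : N = n + r
  hol : HolM N n pr
  lb : IsLB N H
  xhol : ∀ i h p, pr p ∈ E.U i → p ∈ H.U h → ∀ a, Hol N (fun p => x i h p a) p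
  xH : ∀ i h h' p, pr p ∈ E.U i → p ∈ H.U h → p ∈ H.U h' → x i h p = H.g h h' p • x i h' p
  xE : ∀ i j h p, pr p ∈ E.U i → pr p ∈ E.U j → p ∈ H.U h → x i h p = E.T i j (pr p) *ᵥ x j h p
  xnz : ∀ i h p, pr p ∈ E.U i → p ∈ H.U h → x i h p ≠ 0
  pr_pt : ∀ i, ∀ y ∈ E.U i, ∀ v, pr (pt i y v) = y
  x_pt : ∀ i, ∀ y ∈ E.U i, ∀ v ≠ 0, ∀ h, pt i y v ∈ H.U h → ∃ c : ℂ, x i h (pt i y v) = c • v
  pt_x : ∀ i h p (c : ℂ), pr p ∈ E.U i → p ∈ H.U h → c ≠ 0 → pt i (pr p) (c • x i h p) = p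
  cont : ∀ i, ∀ y ∈ E.U i, ∀ v ≠ 0, ContinuousAt (fun q : V.X × Cm (r + 1) => pt i q.1 q.2) (y, v)
  an : ∀ i, ∀ y ∈ E.U i, ∀ v ≠ 0, ∀ (e : Chart n V.X) (e' : Chart N P.X), At e y →
    At e' (pt i y v) →
    AnalyticAt ℂ (fun q : Cm n × Cm (r + 1) => e' (pt i (e.symm q.1) q.2)) (e y, v)

/-- the projective space with its hyperplane bundle and its homogeneous coordinates -/
structure PS (r : ℕ) : Type 1 where
  P : Mf r
  H : Bd P.X
  x : H.ι → P.X → Cm (r + 1)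
  pt : Cm (r + 1) → P.X
  lb : IsLB r H
  sec : ∀ a, IsSec r H fun h p => x h p a
  xnz : ∀ h, ∀ p ∈ H.U h, x h p ≠ 0
  x_pt : ∀ v ≠ 0, ∀ h, pt v ∈ H.U h → ∃ c : ℂ, x h (pt v) = c • v
  pt_x : ∀ h p (c : ℂ), p ∈ H.U h → c ≠ 0 → pt (c • x h p) = p
  cont : ∀ v ≠ 0, ContinuousAt pt v
  an : ∀ v ≠ 0, ∀ e : Chart r P.X, At e (pt v) → AnalyticAt ℂ (fun w => e (pt w)) v
  pos : Pos r H
  conn : ConnectedSpace P.X

namespace Pb

/-- **PBEX**: projective bundles exist -/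
def PBEX : Prop :=
  ∀ (n r N : ℕ) (V : Mf n) (E : VB (r + 1) V), N = n + r → Nonempty (PB E N)

/-- **PSEX**: projective spaces exist -/
def PSEX : Prop := ∀ r, Nonempty (PS r)

/-- **RELA**: relatively ample line bundles are positive up to forms from the base -/
def RELA : Prop :=
  ∀ (n N : ℕ) (V : Mf n) (M : Mf N) (π : V.X → M.X) (L : Bd V.X), HolM n N π → IsLB n L →
    RelAmple (XH n V.X) (XH N M.X) π L → (M.Kah → V.Kah) ∧ ∀ A : Bd M.X, IsLB N A → Pos N A →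
      ∃ k₀ : ℕ, ∀ k ≥ k₀, Pos n (L.mul (pull π (A.pow k)))

/-- **KODE**: the embedding theorem of Kodaira -/
def KODE : Prop :=
  ∀ (n : ℕ) (V : Mf n) (L : Bd V.X), IsLB n L → Pos n L →
    ∃ (k r : ℕ) (s : L.ι → V.X → Cm (r + 1)), 1 ≤ k ∧
      (∀ a, IsSec n (L.pow k) fun b y => s b y a) ∧ (∀ b, ∀ y ∈ L.U b, s b y ≠ 0) ∧
      ∀ S : PS r, ∃ φ : V.X → S.P.X, Emb n r φ (range φ) ∧ ∀ b, ∀ y ∈ L.U b, φ y = S.pt (s b y)

end Pb

end Vale.Agent.P281Z
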