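import Vale.Agent.P281Z.Pb.Defs
import Vale.Agent.P281Z.Mf.Api
import Vale.Agent.P264Z.G.CP
import Mathlib.Topology.FiberBundle.Basic

/-!
# P281, block PB: existence of projective bundles
-/

open scoped Manifold ContDiff Topology Matrix
open Set Filter
open Vale.Agent.P272.K (Cm Chart At)
open Vale.Agent.P285.H281.FD (Bd IsLB IsSec)
open Vale.Agent.P277Z (Hol at_chart trans_an hol_const)
open Vale.Agent.P264Z (CP)
open Vale.Agent.P264Z.CP (rep ins aff)

noncomputable section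

namespace Vale.Agent.P281Z

namespace VB

variable {ρ n : ℕ} {V : Mf n} (E : VB ρ V) {i j k : E.ι} {y : V.X}

theorem mv_mv (hi : y ∈ E.U i) (hj : y ∈ E.U j) (hk : y ∈ E.U k) (v : Cm ρ) :
    E.T i j y *ᵥ (E.T j k y *ᵥ v) = E.T i k y *ᵥ v := by
  rw [Matrix.mulVec_mulVec, E.cocycle i j k y hi hj hk]

theorem mv_self (hi : y ∈ E.U i) (v : Cm ρ) : E.T i i y *ᵥ v = v := by
  rw [E.self i y hi, Matrix.one_mulVec]

theorem mv_ne (hi : y ∈ E.U i) (hj : y ∈ E.U j) {v : Cm ρ} (hv : v ≠ 0) : E.T i j y *ᵥ v ≠ 0 :=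
  fun h => hv (by rw [← E.mv_self hj v, ← E.mv_mv hj hi hj, h, Matrix.mulVec_zero])

theorem cont_mv {α : Type*} [TopologicalSpace α] {f : α → V.X} {w : α → Cm ρ} {a : α}
    (hi : f a ∈ E.U i) (hj : f a ∈ E.U j) (hf : ContinuousAt f a) (hw : ContinuousAt w a) :
    ContinuousAt (fun a => E.T i j (f a) *ᵥ w a) a :=
  continuousAt_pi.2 fun b => tendsto_finsetSum Finset.univ fun c _ =>
    ((E.hol i j _ hi hj b c).cont.comp hf).mul ((continuousAt_apply c _).comp hw)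

theorem hol_mv {m : ℕ} {W : Type} [TopologicalSpace W] [ChartedSpace (Cm m) W]
    [IsManifold 𝓘(ℂ, Cm m) ω W] {f : W → V.X} {w : W → Cm ρ} {a : W}
    (hi : f a ∈ E.U i) (hj : f a ∈ E.U j) (hf : HolA m n f a) (hw : ∀ c, Hol m (fun a => w a c) a)
    (b : Fin ρ) : Hol m (fun a => (E.T i j (f a) *ᵥ w a) b) a :=
  Hol.sum Finset.univ fun c _ => (hf.hol (E.hol i j _ hi hj b c)).mul (hw c)

end VB

namespace Pb.Ex

variable {n r : ℕ} {V : Mf n}

open Classical in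
/-- the point with the homogeneous coordinates `v` -/
def mk' (v : Cm (r + 1)) : CP r := if h : v ≠ 0 then CP.mk ⟨v, h⟩ else CP.pt 0 0

theorem mk'_of {v : Cm (r + 1)} (h : v ≠ 0) : mk' v = CP.mk ⟨v, h⟩ := dif_pos h

theorem mk'_rep (q : CP r) : mk' (rep q).1 = q := (mk'_of (rep q).2).trans (CP.mk_rep q)

theorem mk'_smul {c : ℂ} (hc : c ≠ 0) (v : Cm (r + 1)) : mk' (c • v) = mk' v := by
  by_cases h : v = 0
  · rw [h, smul_zero]
  · rw [mk'_of h, mk'_of (smul_ne_zero hc h)]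
    exact (CP.mk_eq_iff _ _).2 ⟨c, rfl⟩

theorem mk'_mv (A : Matrix (Fin (r + 1)) (Fin (r + 1)) ℂ) {v : Cm (r + 1)} (h : v ≠ 0) :
    mk' (A *ᵥ (rep (mk' v)).1) = mk' (A *ᵥ v) := by
  obtain ⟨a, ha, k⟩ := CP.exists_rep ⟨v, h⟩
  rw [mk'_of h, k, Matrix.mulVec_smul, mk'_smul ha]

theorem cont_mk' {v : Cm (r + 1)} (h : v ≠ 0) : ContinuousAt mk' v := by
  have h1 : Continuous ((mk' : Cm (r + 1) → CP r) ∘ (Subtype.val : CP.V0 r → _)) :=
    CP.continuous_mk.congr fun w => (mk'_of w.2).symm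
  exact (isOpen_ne.isOpenEmbedding_subtypeVal.continuousAt_iff (x := ⟨v, h⟩)).1 h1.continuousAt

theorem chart_mk' (m : Fin (r + 1)) {v : Cm (r + 1)} (h : v ≠ 0) :
    CP.chart m (mk' v) = aff m v := by rw [mk'_of h, CP.chart_mk]

theorem src_mk' (m : Fin (r + 1)) {v : Cm (r + 1)} (h : v ≠ 0) :
    mk' v ∈ (CP.chart m).source ↔ v m ≠ 0 := by rw [mk'_of h, CP.mem_source_mk]

theorem mk'_ins (m : Fin (r + 1)) (z : Cm r) : mk' (ins m z) = (CP.chart m).symm z :=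
  mk'_of (CP.ins_ne_zero m z)

theorem an_aff {m : Fin (r + 1)} {v : Cm (r + 1)} (h : v m ≠ 0) : AnalyticAt ℂ (aff m) v :=
  (CP.contDiffAt_aff m h).analyticAt

theorem an_ins (m : Fin (r + 1)) (z : Cm r) : AnalyticAt ℂ (ins m) z :=
  (CP.contDiff_ins' m).contDiffAt.analyticAt

variable (E : VB (r + 1) V)

/-- the bundle of projective spaces -/
def core : FiberBundleCore E.ι V.X (CP r) where
  baseSet := E.U
  isOpen_baseSet := E.isOpen
  indexAt y := (E.cover y).choose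
  mem_baseSet_at y := (E.cover y).choose_spec
  coordChange i j y q := mk' (E.T j i y *ᵥ (rep q).1)
  coordChange_self i y hy q := by rw [E.mv_self hy, mk'_rep]
  continuousOn_coordChange i j := by
    rintro ⟨y, q⟩ ⟨⟨hi, hj⟩, -⟩
    obtain ⟨v, rfl⟩ := CP.mk_surjective q
    refine ContinuousAt.continuousWithinAt ?_
    refine ((IsOpenQuotientMap.id.prodMap CP.isOpenQuotientMap_mk).continuousAt_comp_iff
      (x := (y, v))).1 ?_
    refine ((cont_mk' (E.mv_ne hj hi v.2)).comp (f := fun q : V.X × CP.V0 r => E.T j i q.1 *ᵥ q.2.1)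
      (E.cont_mv hj hi continuousAt_fst
        (continuous_subtype_val.continuousAt.comp continuousAt_snd))).congr (.of_forall fun q => ?_)
    exact ((mk'_mv _ q.2.2).symm.trans (by rw [mk'_of q.2.2]; rfl))
  coordChange_comp i j k y hy q := by
    rw [mk'_mv _ (E.mv_ne hy.1.2 hy.1.1 (rep q).2), E.mv_mv hy.2 hy.1.2 hy.1.1]

/-- the total space -/
abbrev Tot : Type := (core E).TotalSpace

/-- the trivializations -/
abbrev τ (i : E.ι) : OpenPartialHomeomorph (Tot E) (V.X × CP r) :=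
  ((core E).localTriv i).toOpenPartialHomeomorph

/-- the line through `v` over `y` -/
def pt (i : E.ι) (y : V.X) (v : Cm (r + 1)) : Tot E := (τ E i).symm (y, mk' v)

/-- the charts -/
def ch (i : E.ι) (m : Fin (r + 1)) (e : Chart n V.X) : Chart (n + r) (Tot E) :=
  τ E i ≫ₕ (e.prod (CP.chart m) ≫ₕ (Fin.appendHomeomorph n r).toOpenPartialHomeomorph)

/-- normalized homogeneous coordinates -/
def nu (i : E.ι) (m : Fin (r + 1)) (p : Tot E) : Cm (r + 1) := ins m (CP.chart m (τ E i p).2)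

variable {E} {i j k : E.ι} {l m : Fin (r + 1)} {y : V.X} {v : Cm (r + 1)} {p : Tot E}
  {e e₂ : Chart n V.X}

theorem pt_fst : (pt E i y v).1 = y := rfl

theorem τ_pt (hi : y ∈ E.U i) (hj : y ∈ E.U j) (hv : v ≠ 0) :
    τ E j (pt E i y v) = (y, mk' (E.T j i y *ᵥ v)) :=
  Prod.ext rfl (((core E).coordChange_comp i _ j y ⟨⟨hi, (core E).mem_baseSet_at y⟩, hj⟩ _).trans
    (mk'_mv _ hv))

theorem mem_ch : p ∈ (ch E i m e).source ↔
    p.1 ∈ E.U i ∧ p.1 ∈ e.source ∧ (τ E i p).2 ∈ (CP.chart m).source :=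
  ⟨fun h => ⟨h.1, h.2.1.1, h.2.1.2⟩, fun h => ⟨h.1, ⟨h.2.1, h.2.2⟩, trivial⟩⟩

theorem ch_apply : ch E i m e p = Fin.append (e p.1) (CP.chart m (τ E i p).2) := rfl

theorem ch_symm (z : Cm (n + r)) : (ch E i m e).symm z =
    pt E i (e.symm fun a => z (Fin.castAdd r a)) (ins m fun a => z (Fin.natAdd n a)) := by
  rw [pt, mk'_ins]
  rfl

theorem pt_nu (hi : p.1 ∈ E.U i) (hm : (τ E i p).2 ∈ (CP.chart m).source) :
    pt E i p.1 (nu E i m p) = p := by
  rw [pt, nu, mk'_ins, (CP.chart m).left_inv hm]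
  exact (τ E i).left_inv hi

theorem nu_ne : nu E i m p ≠ 0 := CP.ins_ne_zero _ _

theorem cont_pt (hi : y ∈ E.U i) (hv : v ≠ 0) :
    ContinuousAt (fun q : V.X × Cm (r + 1) => pt E i q.1 q.2) (y, v) :=
  ((τ E i).continuousAt_symm (x := (y, mk' v)) ⟨hi, trivial⟩).comp
    (f := fun q : V.X × Cm (r + 1) => (q.1, mk' q.2))
    (continuousAt_fst.prodMk (ContinuousAt.comp (g := mk') (cont_mk' hv) continuousAt_snd))

theorem an_append {F : Type} [NormedAddCommGroup F] [NormedSpace ℂ F] {f : F → Cm n}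
    {g : F → Cm r} {z : F} (hf : AnalyticAt ℂ f z) (hg : AnalyticAt ℂ g z) :
    AnalyticAt ℂ (fun z => (Fin.append (f z) (g z) : Cm (n + r))) z :=
  AnalyticAt.pi fun a => by
    induction a using Fin.addCases with
    | left a => simpa only [Fin.append_left] using analyticAt_pi_iff.1 hf a
    | right a => simpa only [Fin.append_right] using analyticAt_pi_iff.1 hg a

theorem an_pt (hi : y ∈ E.U i) (hv : v ≠ 0) (he : At e y) (he₂ : e₂ ∈ atlas (Cm n) V.X)
    (h : pt E i y v ∈ (ch E j l e₂).source) :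
    AnalyticAt ℂ (fun q : Cm n × Cm (r + 1) => ch E j l e₂ (pt E i (e.symm q.1) q.2)) (e y, v) := by
  obtain ⟨hj, h2, h3⟩ := mem_ch.1 h
  replace hj : y ∈ E.U j := hj
  rw [τ_pt hi hj hv, src_mk' l (E.mv_ne hj hi hv)] at h3
  have k1 : AnalyticAt ℂ (fun q : Cm n × Cm (r + 1) => E.T j i (e.symm q.1) *ᵥ q.2) (e y, v) :=
    AnalyticAt.pi fun b => Finset.analyticAt_fun_sum Finset.univ fun c _ =>
      (AnalyticAt.fun_comp (g := fun z => E.T j i (e.symm z) b c) (x := (e y, v))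
        (E.hol j i y hj hi b c e he) analyticAt_fst).fun_mul (analyticAt_pi_iff.1 analyticAt_snd c)
  refine (an_append ((trans_an (e := e₂) ⟨he₂, h2⟩ he).fun_comp (f := Prod.fst) analyticAt_fst)
    ((an_aff (m := l) (by rw [he.left_inv]; exact h3)).fun_comp k1)).congr ?_
  filter_upwards [continuousAt_fst.eventually (at_ev he
    (((E.isOpen i).inter (E.isOpen j)).eventually_mem ⟨hi, hj⟩)),
    continuousAt_snd.eventually_ne hv] with q k2 k3
  rw [ch_apply, τ_pt k2.1 k2.2 k3, chart_mk' l (E.mv_ne k2.2 k2.1 k3)]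
  rfl

instance : ChartedSpace (Cm (n + r)) (Tot E) where
  atlas := {c | ∃ i m, ∃ e ∈ atlas (Cm n) V.X, ch E i m e = c}
  chartAt p := ch E ((core E).indexAt p.1) (CP.exists_ne (τ E ((core E).indexAt p.1) p).2).choose
    (chartAt (Cm n) p.1)
  mem_chart_source p := mem_ch.2 ⟨(core E).mem_baseSet_at p.1, mem_chart_source _ _,
    (CP.exists_ne (τ E ((core E).indexAt p.1) p).2).choose_spec⟩
  chart_mem_atlas _ := ⟨_, _, _, chart_mem_atlas _ _, rfl⟩

theorem an_fst (z : Cm (n + r)) : AnalyticAt ℂ (fun (z : Cm (n + r)) a => z (Fin.castAdd r a)) z :=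
  AnalyticAt.pi fun _ => analyticAt_pi_iff.1 analyticAt_id _

theorem an_snd (z : Cm (n + r)) : AnalyticAt ℂ (fun (z : Cm (n + r)) a => z (Fin.natAdd n a)) z :=
  AnalyticAt.pi fun _ => analyticAt_pi_iff.1 analyticAt_id _

instance : IsManifold 𝓘(ℂ, Cm (n + r)) ω (Tot E) := by
  apply isManifold_of_contDiffOn
  rintro _ _ ⟨i, m, e, he, rfl⟩ ⟨j, l, e₂, he₂, rfl⟩ z hz
  simp only [modelWithCornersSelf_coe, modelWithCornersSelf_coe_symm, Function.comp_id,
    Function.id_comp, range_id, inter_univ, preimage_id] at hz ⊢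
  have h1 : (fun a => z (Fin.castAdd r a)) ∈ e.target := hz.1.1.2.1
  have h2 : e.symm (fun a => z (Fin.castAdd r a)) ∈ E.U i := hz.1.2.1
  have h3 : (ch E i m e).symm z ∈ (ch E j l e₂).source := hz.2
  rw [ch_symm] at h3
  have h4 := an_pt h2 (CP.ins_ne_zero _ _) (P272.K.At.of_target he h1) he₂ h3
  rw [e.right_inv h1] at h4
  refine ((h4.fun_comp (f := fun z : Cm (n + r) => ((fun a => z (Fin.castAdd r a) : Cm n),
    ins m fun a => z (Fin.natAdd n a))) ((an_fst z).prod ((an_ins m _).fun_comp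
      (an_snd z)))).congr (.of_forall fun w => ?_)).contDiffAt.contDiffWithinAt
  exact (congrArg _ (ch_symm w)).symm

theorem cont_pr : Continuous fun p : Tot E => p.1 := (core E).continuous_proj

instance : T2Space (Tot E) := t2Space_iff_disjoint_nhds.2 fun p q h => by
  by_cases k : p.1 = q.1
  · have hp : p ∈ (τ E ((core E).indexAt p.1)).source := (core E).mem_baseSet_at p.1
    have hq : q ∈ (τ E ((core E).indexAt p.1)).source :=
      show q.1 ∈ E.U _ from k ▸ (core E).mem_baseSet_at p.1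
    exact ((τ E _).continuousAt hp).tendsto.disjoint
      (disjoint_nhds_nhds.2 fun k' => h ((τ E _).injOn hp hq k')) ((τ E _).continuousAt hq).tendsto
  · exact (cont_pr.tendsto p).disjoint (disjoint_nhds_nhds.2 k) (cont_pr.tendsto q)

instance : CompactSpace (Tot E) := ⟨by
  obtain ⟨K, h1, h2⟩ : ∃ K : Set (Tot E), IsCompact K ∧ ∀ p : Tot E, p.1 ∈ univ → p ∈ K := by
    refine (isCompact_univ (X := V.X)).induction_on
      (p := fun S => ∃ K : Set (Tot E), IsCompact K ∧ ∀ p : Tot E, p.1 ∈ S → p ∈ K)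
      ⟨∅, isCompact_empty, fun _ h => h⟩ (fun _ _ h ⟨K, h1, h2⟩ => ⟨K, h1, fun p k => h2 p (h k)⟩)
      (fun _ _ ⟨K, h1, h2⟩ ⟨K', h3, h4⟩ => ⟨_, h1.union h3, fun p k => k.imp (h2 p) (h4 p)⟩)
      fun y _ => ?_
    obtain ⟨i, hi⟩ := E.cover y
    obtain ⟨S, k1, k2, k3⟩ := local_compact_nhds ((E.isOpen i).mem_nhds hi)
    refine ⟨S, mem_nhdsWithin_of_mem_nhds k1, (τ E i).symm '' (S ×ˢ univ),
      (k3.prod isCompact_univ).image_of_continuousOn
        ((τ E i).continuousOn_symm.mono fun q hq => ⟨k2 hq.1, trivial⟩),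
      fun p hp => ⟨τ E i p, ⟨hp, trivial⟩, (τ E i).left_inv (k2 hp)⟩⟩
  exact h1.of_isClosed_subset isClosed_univ fun p _ => h2 p trivial⟩

theorem at_ch (hi : p.1 ∈ E.U i) (hm : (τ E i p).2 ∈ (CP.chart m).source) :
    At (ch E i m (chartAt (Cm n) p.1)) p :=
  ⟨⟨_, _, _, chart_mem_atlas _ _, rfl⟩, mem_ch.2 ⟨hi, mem_chart_source _ _, hm⟩⟩

theorem hol_pr : HolM (n + r) n fun p : Tot E => p.1 := fun p =>
  HolA.of_hol cont_pr.continuousAt (at_chart p.1) fun a =>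
    (hol_chart (at_chart p) (Fin.castAdd r a)).congr (.of_forall fun _ => Fin.append_left _ _ a)

theorem hol_nu (hi : p.1 ∈ E.U i) (hm : (τ E i p).2 ∈ (CP.chart m).source) (a : Fin (r + 1)) :
    Hol (n + r) (fun p => nu E i m p a) p :=
  (P277Z.hol_comp (at_ch hi hm) (f := fun z => ins m (fun b => z (Fin.natAdd n b)) a)
    (analyticAt_pi_iff.1 ((an_ins m _).fun_comp (an_snd _)) a)).congr (.of_forall fun q => by
      simp only [ch_apply, Fin.append_right, nu])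

variable (E) in
/-- the dual of the tautological bundle -/
def hb : Bd (Tot E) where
  ι := E.ι × Fin (r + 1)
  U h := {p | p.1 ∈ E.U h.1 ∧ (τ E h.1 p).2 ∈ (CP.chart h.2).source}
  g h h' p := (E.T h'.1 h.1 p.1 *ᵥ nu E h.1 h.2 p) h'.2

variable (E) in
/-- homogeneous coordinates -/
def xx (i : E.ι) (h : (hb E).ι) (p : Tot E) : Cm (r + 1) := E.T i h.1 p.1 *ᵥ nu E h.1 h.2 p

variable {h h' h'' : (hb E).ι}

theorem xx_chg (hi : p.1 ∈ E.U i) (k : p ∈ (hb E).U h) (k' : p ∈ (hb E).U h') :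
    xx E i h p = (hb E).g h h' p • xx E i h' p := by
  have h1 := τ_pt k.1 k'.1 (nu_ne (i := h.1) (m := h.2) (p := p))
  rw [pt_nu k.1 k.2] at h1
  have h2 := E.mv_ne k'.1 k.1 (nu_ne (i := h.1) (m := h.2) (p := p))
  have h3 := k'.2
  rw [h1, src_mk' _ h2] at h3
  have h4 : nu E h'.1 h'.2 p = ins h'.2 (aff h'.2 (E.T h'.1 h.1 p.1 *ᵥ nu E h.1 h.2 p)) := by
    rw [nu, h1, chart_mk' _ h2]
  rw [xx, xx, ← Matrix.mulVec_smul, h4, ← E.mv_mv hi k'.1 k.1]
  exact congrArg _ (CP.smul_ins_aff _ h3).symm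

theorem xx_ne (hi : p.1 ∈ E.U i) (k : p ∈ (hb E).U h) : xx E i h p ≠ 0 := E.mv_ne hi k.1 nu_ne

theorem hb_lb : IsLB (n + r) (hb E) where
  isOpen h := (τ E h.1).isOpen_inter_preimage ((CP.chart h.2).open_source.preimage continuous_snd)
  cover p := ⟨(_, _), (core E).mem_baseSet_at p.1,
    (CP.exists_ne (τ E ((core E).indexAt p.1) p).2).choose_spec⟩
  holo h h' e p he k k' :=
    (E.hol_mv k'.1 k.1 (hol_pr.at p) (hol_nu k.1 k.2) h'.2 e he).contDiffAt
  ne_zero h h' p k k' h0 := xx_ne k.1 k (by rw [xx_chg k.1 k k', h0, zero_smul])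
  cocycle h h' h'' p k k' k'' := smul_left_injective ℂ (xx_ne k.1 k'') (by
    beta_reduce
    rw [mul_smul, ← xx_chg k.1 k' k'', ← xx_chg k.1 k k', ← xx_chg k.1 k k''])

variable (E) in
/-- the projective bundle -/
def pb : PB E (n + r) where
  P := ⟨Tot E⟩
  pr p := p.1
  H := hb E
  x := xx E
  pt := pt E
  dim := rfl
  hol := hol_pr
  lb := hb_lb
  xhol i h p hi k := E.hol_mv hi k.1 (hol_pr.at p) (hol_nu k.1 k.2)
  xH i h h' p := xx_chg
  xE i j h p hi hj k := (E.mv_mv hi hj k.1 _).symm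
  xnz i h p := xx_ne
  pr_pt i y hi v := rfl
  x_pt i y hi v hv h k := by
    have h1 := τ_pt hi k.1 hv
    have h2 := E.mv_ne (y := y) k.1 hi hv
    have h3 := k.2
    rw [h1, src_mk' _ h2] at h3
    refine ⟨((E.T h.1 i y *ᵥ v) h.2)⁻¹, (eq_inv_smul_iff₀ h3).2 ?_⟩
    rw [xx, nu, h1, chart_mk' _ h2, ← Matrix.mulVec_smul, CP.smul_ins_aff _ h3]
    exact (E.mv_mv hi k.1 hi v).trans (E.mv_self hi v)
  pt_x i h p c hi k hc := by
    have h1 := τ_pt k.1 hi (nu_ne (i := h.1) (m := h.2) (p := p))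
    rw [pt_nu k.1 k.2] at h1
    rw [pt, mk'_smul hc, xx, ← h1]
    exact (τ E i).left_inv hi
  cont i y hi v hv := cont_pt hi hv
  an i y hi v hv e := by
    rintro _ he ⟨⟨j, l, e₂, he₂, rfl⟩, h⟩
    exact an_pt hi hv he he₂ h

end Pb.Ex

theorem Pb.pbex : Pb.PBEX := fun _ _ _ _ E h => h ▸ ⟨Pb.Ex.pb E⟩

end Vale.Agent.P281Z
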