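import Vale.Agent.P281Z.Pb.Defs
import Vale.Agent.P281Z.Rs.Kahr
import Vale.Agent.P277Z.GH.KahM

/-!
# P281, block PB: relatively ample line bundles are positive up to forms from the base
-/

open scoped Manifold ContDiff Topology ComplexOrder
open Set Filter
open Vale.Agent.P272.K
open Vale.Agent.P285.H281.FD (Bd IsLB IsMet)
open Vale.Agent.P284Y.Lib (levi_hol levi_congr two_le_inf)
open Vale.Agent.P277 (RelAmple)
open Vale.Agent.P277.H60.Z (XH)
open Vale.Agent.P277Z.St (Sp)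
open Vale.Agent.P277Z.Slc (at_chartAt)
open Vale.Agent.P277Z.Pos (FlatAt PosAt kah)
open Vale.Agent.P277Z.Hl.PosbH (flat_of)
open Vale.Agent.P277Z.GH.Ka
open Vale.Agent.P281Z.Rs.Kahr (hol_comp flat_comb pots)

noncomputable section

namespace Vale.Agent.P281Z.Pb

namespace Rela

variable {n : ℕ} {V : Mf n} {u v : V.X → ℝ} {y : V.X}

theorem sp_of_pos (h : ∀ᶠ x in 𝓝 y, PosAt n u x) : Sp (XH n V.X) u y := by
  have he := at_chartAt (n := n) y
  set e := chartAt (Cm n) y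
  refine sp_of (model_chart he) he.2 (ψ := fun z => u (e.symm z)) ?_ ?_
  · filter_upwards [(e.tendsto_symm he.2).eventually h, e.open_target.mem_nhds (e.map_source he.2)]
      with z h1 h2
    have h3 := h1 e ⟨he.1, e.map_target h2⟩
    rwa [e.right_inv h2] at h3
  · filter_upwards [e.open_source.mem_nhds he.2] with x hx using congrArg u (e.left_inv hx).symm

theorem pos_of_sp (hu : Sp (XH n V.X) u y) : PosAt n u y := fun e he => by
  have hc := holAt_chart he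
  rw [← e.left_inv he.2] at hu
  refine ⟨(sm_comp hc (sp_sm hu)).self_of_nhds,
    P277Z.Pos.RbAux.posDef_of_levi (sm_two hc (sp_sm hu)) fun ξ hξ => ?_⟩
  obtain ⟨N, k, W, Ω, h, φ, ψ, k1, k2, k3, k4⟩ := hu
  have h1 : (fun w => u (e.symm w)) =ᶠ[𝓝 (e y)] fun w => ψ (φ (e.symm w)) :=
    (hc.1.eventually (k2.isOpen.mem_nhds k1)).mono fun w hw => k4 _ hw
  have h2 := k3 _ (mem_Ω k2 k1)
  have h3 := an_model k2 k1 hc
  rw [levi_congr h1, levi_hol h3 (h2.1.of_le two_le_inf)]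
  refine levi_pos (h2.1.of_le two_le_inf) h2.2 fun h0 => hξ ?_
  obtain ⟨Γ, g1, g2⟩ := lift k2 k1 (F := e) fun a =>
    (model_chart he).isCoord.hol a _ (e.map_target (e.map_source he.2))
  have h4 : (Γ ∘ fun w => φ (e.symm w)) =ᶠ[𝓝 (e y)] id := by
    filter_upwards [hc.1.eventually g2, e.eventually_right_inverse' he.2] with w h5 h6
      using h5.symm.trans h6
  have h5 := (g1.differentiableAt.hasFDerivAt.comp (e y) h3.differentiableAt.hasFDerivAt).fderiv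
  rw [h4.fderiv_eq, fderiv_id] at h5
  have h6 := congrArg (fun L => L ξ) h5
  simpa [h0] using h6

theorem pos_of_flat (hv : PosAt n v y) (h : FlatAt n (fun x => u x - v x) y) : PosAt n u y :=
  fun e he => by
  have h1 : ContDiffAt ℝ ∞ (fun z => u (e.symm z)) (e y) := by
    simpa only [sub_add_cancel] using (h e he).1.add (hv e he).1
  exact ⟨h1, posDef_of_flat (h1.of_le two_le_inf) ((hv e he).1.of_le two_le_inf) (h e he).2
    (hv e he).2⟩

/-- the potentials on the total space -/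
theorem core {N : ℕ} {M : Mf N} {π : V.X → M.X} {L : Bd V.X} (hπ : HolM n N π) (hL : IsLB n L)
    (hA : RelAmple (XH n V.X) (XH N M.X) π L) {ι : Type} {U : ι → Set M.X} {φ : ι → M.X → ℝ}
    (hU : ∀ a, IsOpen (U a)) (hc : ∀ x, ∃ a, x ∈ U a) (hφ : ∀ a, ∀ x ∈ U a, PosAt N (φ a) x)
    (hf : ∀ a b, ∀ x ∈ U a, x ∈ U b → FlatAt N (fun x => φ a x - φ b x) x) :
    ∃ (ψ : L.ι → V.X → ℝ) (t₀ : ℝ),
      (∀ i j y, y ∈ L.U i → y ∈ L.U j → ψ i y = ψ j y + Real.log (‖L.g i j y‖ ^ 2)) ∧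
      (∀ (t : ℝ) i j a b y, y ∈ L.U i → y ∈ L.U j → π y ∈ U a → π y ∈ U b →
        FlatAt n (fun x => ψ i x + t * φ a (π x) - (ψ j x + t * φ b (π x))) y) ∧
      ∀ t, t₀ ≤ t → ∀ i a y, y ∈ L.U i → π y ∈ U a → PosAt n (fun x => ψ i x + t * φ a (π x)) y := by
  obtain ⟨ψ, t₀, h1, -, h3⟩ := cover (Y := XH n V.X) (X := XH N M.X) (g := π) (P := L)
    (fun y => ⟨hπ.continuous.continuousAt, fun f hf => hol_comp hπ hf⟩) ⟨hL.isOpen, hL.cover,
      fun i j x hi hj e he => (hL.holo i j e x he hi hj).analyticAt, hL.ne_zero, hL.cocycle⟩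
    hA hU hc fun a x hx => sp_of_pos (mem_of_superset ((hU a).mem_nhds hx) (hφ a))
  have h4 : ∀ (t : ℝ) i j a b (y : V.X), y ∈ L.U i → y ∈ L.U j → π y ∈ U a → π y ∈ U b →
      FlatAt n (fun x : V.X => ψ i x + t * φ a (π x) - (ψ j x + t * φ b (π x))) y := by
    intro t i j a b y hi hj ha hb
    refine flat_comb t (Rs.Kahr.flat_comp hπ (hf a b _ ha hb)) (flat_of (Y := V.X) (F := L.g i j)
      (fun e he => (hL.holo i j e y he hi hj).analyticAt) (hL.ne_zero i j y hi hj)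
      (.of_forall fun _ => rfl)) ?_
    filter_upwards [(hL.isOpen i).mem_nhds hi, (hL.isOpen j).mem_nhds hj] with x k1 k2
    rw [h1 i j x k1 k2]
    ring
  refine ⟨ψ, t₀, h1, h4, fun t ht i a y hi ha => ?_⟩
  obtain ⟨j, b, h5⟩ := h3 y t ht
  obtain ⟨hj, hb, h6⟩ := h5.self_of_nhds
  exact pos_of_flat (pos_of_sp h6) (h4 t i j a b y hi hj ha hb)

end Rela

open Rela in
/-- **RELA** -/
theorem rela : RELA := by
  intro n N V M π L hπ hL hA
  constructor
  · rintro ⟨w, hw⟩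
    choose φ hφ using pots hw
    choose U h1 h2 h3 using fun x => eventually_nhds_iff.1 (hφ x)
    obtain ⟨ψ, t, -, a2, a3⟩ := core hπ hL hA h2 (fun x => ⟨x, h3 x⟩) (φ := φ)
      (fun i x hx e he => ⟨(h1 i x hx e he).1, (h1 i x hx e he).2 ▸ hw.posDef e x he⟩)
      fun i j x hi hj e he => ⟨(h1 i x hi e he).1.sub (h1 j x hj e he).1, by
        rw [cHess_sub ((h1 i x hi e he).1.of_le two_le_inf) ((h1 j x hj e he).1.of_le two_le_inf),
          (h1 i x hi e he).2, (h1 j x hj e he).2, sub_self]⟩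
    obtain ⟨χ, hχ, -⟩ := kah n V.X (L.ι × M.X) (fun q => L.U q.1 ∩ π ⁻¹' U q.2)
      (fun q x => ψ q.1 x + t * φ q.2 (π x))
      (fun q => (hL.isOpen _).inter ((h2 _).preimage hπ.continuous))
      (fun y => (hL.cover y).imp' (fun i => (i, π y)) fun i hi => ⟨hi, h3 _⟩)
      (fun q y hy => a3 t le_rfl _ _ y hy.1 hy.2)
      fun q q' y hy hy' => a2 t _ _ _ _ y hy.1 hy'.1 hy.2 hy'.2
    exact ⟨χ, hχ⟩
  · rintro A hA' ⟨φ, h1, h2⟩
    obtain ⟨ψ, t, a1, -, a3⟩ := core hπ hL hA hA'.isOpen hA'.cover (φ := φ)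
      (fun i x hx e he => ⟨h1.smooth i e x he hx, h2 i e x he hx⟩)
      fun i j x hi hj => flat_of (fun e he => (hA'.holo i j e x he hi hj).analyticAt)
        (hA'.ne_zero i j x hi hj) (by
        filter_upwards [(hA'.isOpen i).mem_nhds hi, (hA'.isOpen j).mem_nhds hj] with w b c
        rw [h1.change i j w b c, add_sub_cancel_left])
    refine ⟨⌈t⌉₊, fun k hk => ⟨fun q x => ψ q.1 x + k * φ q.2 (π x),
      ⟨fun q e y he hy => (a3 k (Nat.ceil_le.1 hk) _ _ y hy.1 hy.2 e he).1,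
        fun q q' y hy hy' => ?_⟩,
      fun q e y he hy => (a3 k (Nat.ceil_le.1 hk) _ _ y hy.1 hy.2 e he).2⟩⟩
    have b2 := norm_ne_zero_iff.2 (hA'.ne_zero _ _ _ hy.2 hy'.2)
    have b3 := norm_ne_zero_iff.2 (hL.ne_zero _ _ _ hy.1 hy'.1)
    change _ = _ + Real.log (‖L.g q.1 q'.1 y * A.g q.2 q'.2 (π y) ^ k‖ ^ 2)
    rw [a1 _ _ y hy.1 hy'.1, h1.change _ _ _ hy.2 hy'.2, norm_mul, mul_pow, norm_pow, ← pow_mul,
      mul_comm k, pow_mul, Real.log_mul (pow_ne_zero _ b3) (pow_ne_zero _ (pow_ne_zero _ b2)),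
      Real.log_pow (‖A.g q.2 q'.2 (π y)‖ ^ 2)]
    ring

end Vale.Agent.P281Z.Pb
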