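import Vale.Agent.P281Z.Pb.Api
import Vale.Agent.P281Z.Pb.Rela
import Vale.Agent.P281Z.Mf.An
import Vale.Agent.P281Z.Sc.Bd

/-!
# P281, block PB: toolbox for projective bundles
-/

open scoped Manifold ContDiff Topology Matrix
open Set Filter Function
open Vale.Agent.P272.K (Cm Chart At)
open Vale.Agent.P285.H281.FD (Bd IsLB IsSec)
open Vale.Agent.P277Z (Hol at_chart trans_an hol_const)
open Vale.Agent.P277Z.Slc (dd Ind)
open Vale.Agent.P277 (RelAmple)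
open Vale.Agent.P277.H60.Z (XH)
open Vale.Agent.P277.HD (pull)

set_option linter.unusedSectionVars false

noncomputable section

namespace Vale.Agent.P281Z

namespace PB

variable {n r N : ℕ} {V : Mf n} {E : VB (r + 1) V} (B : PB E N) {i j : E.ι} {y : V.X}
  {v w : Cm (r + 1)} {p q : B.P.X} {h h' : B.H.ι} {c : ℂ}

theorem pt_mem (hi : y ∈ E.U i) (hj : y ∈ E.U j) : B.pr (B.pt i y v) ∈ E.U j := by
  rwa [B.pr_pt i y hi]

theorem pt_x' (hi : B.pr p ∈ E.U i) (hp : p ∈ B.H.U h) : B.pt i (B.pr p) (B.x i h p) = p := by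
  simpa only [one_smul] using B.pt_x i h p 1 hi hp one_ne_zero

theorem x_pt' (hi : y ∈ E.U i) (hv : v ≠ 0) (hp : B.pt i y v ∈ B.H.U h) :
    ∃ c : ℂ, c ≠ 0 ∧ B.x i h (B.pt i y v) = c • v :=
  let ⟨c, k⟩ := B.x_pt i y hi v hv h hp
  ⟨c, fun h0 => B.xnz i h _ (B.pt_mem hi hi) hp (by rw [k, h0, zero_smul]), k⟩

theorem pt_smul (hi : y ∈ E.U i) (hc : c ≠ 0) (hv : v ≠ 0) : B.pt i y (c • v) = B.pt i y v := by
  obtain ⟨h, hp⟩ := B.lb.cover (B.pt i y v)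
  obtain ⟨a, ha, k⟩ := B.x_pt' hi hv hp
  rw [← B.pt_x i h _ (c * a⁻¹) (B.pt_mem hi hi) hp (mul_ne_zero hc (inv_ne_zero ha)), k, smul_smul,
    inv_mul_cancel_right₀ ha, B.pr_pt i y hi]

theorem pt_chg (hi : y ∈ E.U i) (hj : y ∈ E.U j) (hv : v ≠ 0) :
    B.pt i y (E.T i j y *ᵥ v) = B.pt j y v := by
  obtain ⟨h, hp⟩ := B.lb.cover (B.pt j y v)
  obtain ⟨a, ha, k⟩ := B.x_pt' hj hv hp
  rw [← B.pt_x' (B.pt_mem hj hi) hp, B.xE i j h _ (B.pt_mem hj hi) (B.pt_mem hj hj) hp, k,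
    B.pr_pt j y hj, Matrix.mulVec_smul, B.pt_smul hi ha (E.mv_ne hi hj hv)]

theorem pt_eq_iff (hi : y ∈ E.U i) (hv : v ≠ 0) (hw : w ≠ 0) :
    B.pt i y v = B.pt i y w ↔ ∃ c : ℂ, v = c • w := by
  refine ⟨fun k => ?_, fun ⟨c, k⟩ => by
    rw [k, B.pt_smul hi (fun h0 => hv (by rw [k, h0, zero_smul])) hw]⟩
  obtain ⟨h, hp⟩ := B.lb.cover (B.pt i y v)
  obtain ⟨a, ha, k1⟩ := B.x_pt' hi hv hp
  obtain ⟨b, k2⟩ := B.x_pt i y hi w hw h (k ▸ hp)
  exact ⟨a⁻¹ * b, by rw [mul_smul, ← k2, ← k, k1, inv_smul_smul₀ ha]⟩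

theorem surj' (hi : B.pr p ∈ E.U i) : ∃ v, v ≠ 0 ∧ B.pt i (B.pr p) v = p :=
  let ⟨h, hp⟩ := B.lb.cover p
  ⟨_, B.xnz i h p hi hp, B.pt_x' hi hp⟩

theorem ext (k : B.pr q = B.pr p) (hi : B.pr p ∈ E.U i) (hp : p ∈ B.H.U h) (hq : q ∈ B.H.U h')
    (k' : ∃ c : ℂ, B.x i h p = c • B.x i h' q) : p = q := by
  rw [← B.pt_x' hi hp, ← B.pt_x' (k ▸ hi) hq, k]
  exact (B.pt_eq_iff hi (B.xnz i h p hi hp) (B.xnz i h' q (k ▸ hi) hq)).2 k'

theorem ratio (hi : y ∈ E.U i) (hv : v ≠ 0) (hp : B.pt i y v ∈ B.H.U h) (a b : Fin (r + 1)) :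
    B.x i h (B.pt i y v) a / B.x i h (B.pt i y v) b = v a / v b :=
  let ⟨_, hc, k⟩ := B.x_pt' hi hv hp
  k ▸ smul_ratio hc v a b

theorem x_ne_iff (hi : y ∈ E.U i) (hv : v ≠ 0) (hp : B.pt i y v ∈ B.H.U h) (a : Fin (r + 1)) :
    B.x i h (B.pt i y v) a ≠ 0 ↔ v a ≠ 0 := by
  obtain ⟨c, hc, k⟩ := B.x_pt' hi hv hp
  rw [k, Pi.smul_apply, smul_eq_mul, mul_ne_zero_iff_left hc]

/-- the factor with `v = sc i h y v • x i h (pt i y v)` -/
def sc (i : E.ι) (h : B.H.ι) (y : V.X) (v : Cm (r + 1)) : ℂ :=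
  Classical.epsilon fun c => v = c • B.x i h (B.pt i y v)

theorem sc_spec (hi : y ∈ E.U i) (hv : v ≠ 0) (hp : B.pt i y v ∈ B.H.U h) :
    v = B.sc i h y v • B.x i h (B.pt i y v) :=
  let ⟨c, hc, k⟩ := B.x_pt' hi hv hp
  Classical.epsilon_spec (p := fun c : ℂ => v = c • B.x i h (B.pt i y v))
    ⟨c⁻¹, by rw [k, inv_smul_smul₀ hc]⟩

theorem sc_ne (hi : y ∈ E.U i) (hv : v ≠ 0) (hp : B.pt i y v ∈ B.H.U h) : B.sc i h y v ≠ 0 :=
  fun h0 => hv (by rw [B.sc_spec hi hv hp, h0, zero_smul])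

theorem near (hi : B.pr p ∈ E.U i) (hp : p ∈ B.H.U h) :
    ∀ᶠ q in 𝓝 p, B.pr q ∈ E.U i ∧ q ∈ B.H.U h :=
  (B.hol.cont.continuousAt.eventually ((E.isOpen i).mem_nhds hi)).and ((B.lb.isOpen h).mem_nhds hp)

theorem surj : Surjective B.pr := fun y =>
  let ⟨i, hi⟩ := E.cover y
  ⟨_, B.pr_pt i y hi 0⟩

section map

variable {m : ℕ} {W : Type} [TopologicalSpace W] [ChartedSpace (Cm m) W]
  [IsManifold 𝓘(ℂ, Cm m) ω W] {g : W → V.X} {s : W → Cm (r + 1)} {z : W}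

theorem an' {e : Chart n V.X} {e' : Chart N B.P.X} (hi : y ∈ E.U i) (hv : v ≠ 0) (he : At e y)
    (he' : At e' (B.pt i y v)) :
    AnalyticAt ℂ (fun q : Cm n × Cm (r + 1) => e' (B.pt i (e.symm q.1) q.2)) (e y, v) :=
  B.an i y hi v hv e e' he he'

theorem holA (hg : HolA m n g z) (hi : g z ∈ E.U i) (hs : ∀ a, Hol m (fun z => s z a) z)
    (h0 : s z ≠ 0) : HolA m N (fun z => B.pt i (g z) (s z)) z := by
  have he := at_chart (n := n) (g z)
  refine .of_an (ContinuousAt.comp (f := fun z => (g z, s z)) (B.cont i _ hi _ h0)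
    (hg.cont.prodMk (AnV.pi hs).cont)) (at_chart z) (at_chart _)
    (((((hg.anV he).prod (AnV.pi hs)).cmp (B.an' hi h0 he (at_chart _))) _ (at_chart z)).congr ?_)
  filter_upwards [at_map hg.cont (at_chart z) he] with t ht
  rw [ht.left_inv]

theorem sc_hol (hg : HolA m n g z) (hi : g z ∈ E.U i) (hs : ∀ a, Hol m (fun z => s z a) z)
    (h0 : s z ≠ 0) (hp : B.pt i (g z) (s z) ∈ B.H.U h) :
    Hol m (fun z => B.sc i h (g z) (s z)) z :=
  hol_fac hs (fun a => (B.holA hg hi hs h0).hol (B.xhol i h _ (B.pt_mem hi hi) hp a))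
    (B.xnz i h _ (B.pt_mem hi hi) hp) (by
    filter_upwards [ne_near hs h0, hg.cont.eventually ((E.isOpen i).mem_nhds hi),
      (B.holA hg hi hs h0).cont.eventually ((B.lb.isOpen h).mem_nhds hp)]
      with y' k1 k2 k3 using B.sc_spec k2 k1 k3)

/-- the kernel of the differential of `(g, [s])` -/
theorem df_eq_zero (hg : HolA m n g z) (hi : g z ∈ E.U i) (hs : ∀ a, Hol m (fun z => s z a) z)
    {l : Fin (r + 1)} (hl : s z l ≠ 0) {e : Chart m W} {e₁ : Chart n V.X} {e' : Chart N B.P.X}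
    (he : At e z) (he₁ : At e₁ (g z)) (he' : At e' (B.pt i (g z) (s z))) {ξ : Cm m} :
    df (fun z => B.pt i (g z) (s z)) e e' z ξ = 0 ↔
      df g e e₁ z ξ = 0 ∧ ∀ j, dd (fun z => s z j / s z l) e z ξ = 0 := by
  have h0 : s z ≠ 0 := Function.ne_iff.2 ⟨l, hl⟩
  have hU := hg.cont.eventually ((E.isOpen i).mem_nhds hi)
  have hA := B.holA hg hi hs h0
  refine ⟨fun k => ⟨?_, fun j => ?_⟩, fun k => ?_⟩
  · rw [← df_congr (f := fun z => B.pr (B.pt i (g z) (s z)))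
      (hU.mono fun t ht => B.pr_pt i _ ht _) he, df_comp (f := fun z => B.pt i (g z) (s z))
      (B.hol.at _) hA he he' (by rwa [B.pr_pt i _ hi]), ContinuousLinearMap.comp_apply, k, map_zero]
  · obtain ⟨h, hp⟩ := B.lb.cover (B.pt i (g z) (s z))
    have h1 := B.xhol i h _ (B.pt_mem hi hi) hp
    rw [← P277Z.Slc.dd_congr (a := fun z => B.x i h (B.pt i (g z) (s z)) j /
      B.x i h (B.pt i (g z) (s z)) l) (by
      filter_upwards [ne_near hs h0, hU, hA.cont.eventually ((B.lb.isOpen h).mem_nhds hp)]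
        with y' k1 k2 k3 using B.ratio k2 k1 k3 j l) he,
      dd_comp (f := fun z => B.pt i (g z) (s z)) ((h1 j).div (h1 l)
        ((B.x_ne_iff hi h0 hp l).2 hl)) hA he he', ContinuousLinearMap.comp_apply, k, map_zero]
  · have h1 : ∀ {y : V.X} {v : Cm (r + 1)}, y ∈ E.U i → v l ≠ 0 →
        B.pt i y (fun j => v j / v l) = B.pt i y v := fun hy hv => by
      rw [ratio_eq, B.pt_smul hy (inv_ne_zero hv) (Function.ne_iff.2 ⟨l, hv⟩)]
    have h2 : AnV m (fun z => (fun j => s z j / s z l : Cm (r + 1))) z :=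
      AnV.pi fun j => (hs j).div (hs l) hl
    refine dd_fac (F := fun z => (e₁ (g z), (fun j => s z j / s z l : Cm (r + 1)))) he
      ((hg.anV he₁).prod h2) (B.an' hi (Function.ne_iff.2 ⟨l, div_ne_zero hl hl⟩) he₁
        (by rwa [h1 hi hl])) ?_ ?_
    · filter_upwards [(hs l).ne_near hl, hU, hg.cont.eventually (at_near he₁)] with t k1 k2 k3
      rw [k3.left_inv, h1 k2 k1]
    · rw [DifferentiableAt.fderiv_prodMk (hg.an he he₁).differentiableAt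
        (h2 e he).differentiableAt]
      exact Prod.ext k.1 (fderiv_ratio hs hl he k.2)

theorem imm_iff (hg : HolA m n g z) (hi : g z ∈ E.U i) (hs : ∀ a, Hol m (fun z => s z a) z)
    {l : Fin (r + 1)} (hl : s z l ≠ 0) {e : Chart m W} {e₁ : Chart n V.X} (he : At e z)
    (he₁ : At e₁ (g z)) : Imm m N (fun z => B.pt i (g z) (s z)) z ↔
      ∀ ξ, df g e e₁ z ξ = 0 → (∀ j, dd (fun z => s z j / s z l) e z ξ = 0) → ξ = 0 :=
  ⟨fun k ξ k1 k2 => (injective_iff_map_eq_zero _).1 (k e _ he (at_chart _)) ξ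
    ((B.df_eq_zero hg hi hs hl he he₁ (at_chart _)).2 ⟨k1, k2⟩), fun k =>
    .of_chart (B.holA hg hi hs (Function.ne_iff.2 ⟨l, hl⟩)) he (at_chart _)
      ((injective_iff_map_eq_zero _).2 fun ξ hξ =>
        ((B.df_eq_zero hg hi hs hl he he₁ (at_chart _)).1 hξ).elim (k ξ))⟩

/-- the universal property -/
theorem lift (hg : HolM m n g) {κ : Type} {O : κ → Set W} (hO : ∀ b, IsOpen (O b))
    (hc : ∀ z, ∃ b, z ∈ O b) {ι : κ → E.ι} (hι : ∀ b, ∀ z ∈ O b, g z ∈ E.U (ι b))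
    {s : κ → W → Cm (r + 1)} (hs : ∀ b, ∀ z ∈ O b, ∀ a, Hol m (fun z => s b z a) z)
    (h0 : ∀ b, ∀ z ∈ O b, s b z ≠ 0) (chg : ∀ b b' z, z ∈ O b → z ∈ O b' →
      ∃ c : ℂ, s b z = c • E.T (ι b) (ι b') (g z) *ᵥ s b' z) :
    ∃ φ : W → B.P.X, HolM m N φ ∧ (∀ z, B.pr (φ z) = g z) ∧
      ∀ b, ∀ z ∈ O b, φ z = B.pt (ι b) (g z) (s b z) := by
  choose β hβ using hc
  have key : ∀ b, ∀ z ∈ O b, B.pt (ι (β z)) (g z) (s (β z) z) = B.pt (ι b) (g z) (s b z) :=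
    fun b z hz => ((B.pt_eq_iff (hι _ z (hβ z)) (h0 _ z (hβ z))
      (E.mv_ne (hι _ z (hβ z)) (hι b z hz) (h0 b z hz))).2 (chg _ b z (hβ z) hz)).trans
      (B.pt_chg (hι _ z (hβ z)) (hι b z hz) (h0 b z hz))
  exact ⟨fun z => B.pt (ι (β z)) (g z) (s (β z) z), fun z =>
    (B.holA (hg.at z) (hι _ z (hβ z)) (hs _ z (hβ z)) (h0 _ z (hβ z))).cng
      (((hO _).eventually_mem (hβ z)).mono fun y' k => (key _ y' k).symm),
    fun z => B.pr_pt _ _ (hι _ z (hβ z)) _, key⟩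

end map

/-- the coordinates of the base and the affine coordinates of the fibre are coordinates -/
theorem key (hi : B.pr p ∈ E.U i) (hp : p ∈ B.H.U h) {l : Fin (r + 1)} (hl : B.x i h p l ≠ 0)
    {e : Chart N B.P.X} {e₁ : Chart n V.X} (he : At e p) (he₁ : At e₁ (B.pr p)) (ξ : Cm N) :
    df B.pr e e₁ p ξ = 0 → (∀ j, dd (fun p => B.x i h p j / B.x i h p l) e p ξ = 0) → ξ = 0 :=
  (B.imm_iff (B.hol.at p) hi (B.xhol i h p hi hp) hl he he₁).1
    ((imm_id p).cng ((B.near hi hp).mono fun _ hq => (B.pt_x' hq.1 hq.2).symm)) ξ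

theorem sbm (p : B.P.X) : Sbm N n B.pr p := by
  obtain ⟨i, hi⟩ := E.cover (B.pr p)
  obtain ⟨v, hv, k⟩ := B.surj' hi
  rw [← k]
  exact Sbm.of_comp (f := fun y => B.pt i y v) (B.hol.at _)
    (B.holA (holM_id.at _) hi (fun _ => hol_const _ _) hv) ((sbm_id _).cng
      (((E.isOpen i).eventually_mem hi).mono fun y hy => (B.pr_pt i y hy v).symm))

/-- the fibres are projective spaces -/
theorem fib_emb (S : PS r) (hi : y ∈ E.U i) : ∃ φ : S.P.X → B.P.X, Emb r N φ (B.pr ⁻¹' {y}) ∧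
    (∀ h, ∀ p ∈ S.H.U h, φ p = B.pt i y (S.x h p)) ∧ ∀ v ≠ 0, φ (S.pt v) = B.pt i y v := by
  obtain ⟨φ, h1, h2, h3⟩ := B.lift (g := fun _ : S.P.X => y) (holM_const y) S.lb.isOpen S.lb.cover
    (ι := fun _ => i) (fun _ _ _ => hi) (s := S.x) (fun _ _ => S.xhol) S.xnz
    fun b b' z k k' => ⟨_, by rw [E.mv_self hi, ← S.x_chg k k']⟩
  have h4 : ∀ v ≠ 0, φ (S.pt v) = B.pt i y v := fun v hv => by
    obtain ⟨h, hp⟩ := S.lb.cover (S.pt v)
    obtain ⟨c, hc, k⟩ := S.x_pt' hv hp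
    rw [h3 h _ hp, k, B.pt_smul hi hc hv]
  refine ⟨φ, ⟨h1, fun p q k => ?_, fun p => ?_, ?_⟩, h3, h4⟩
  · obtain ⟨v, hv, rfl⟩ := S.surj p
    obtain ⟨w, hw, rfl⟩ := S.surj q
    rw [h4 v hv, h4 w hw, B.pt_eq_iff hi hv hw] at k
    exact (S.pt_eq_iff hv hw).2 k
  · obtain ⟨h, hp⟩ := S.lb.cover p
    obtain ⟨l, hl⟩ := Function.ne_iff.1 (S.xnz h p hp)
    have k := (S.lb.isOpen h).eventually_mem hp
    refine ((B.imm_iff (g := fun _ => y) ((holM_const y).at p) hi (S.xhol hp) hl (at_chart p)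
      (at_chart y)).2 fun ξ _ k2 => of_not_not fun k3 => ?_).cng (k.mono fun q hq => (h3 h q hq).symm)
    obtain ⟨j, hj⟩ := (S.imm_iff (S.xhol hp) hl (at_chart p)).1
      ((imm_id p).cng (k.mono fun q hq => (S.pt_x' hq).symm)) ξ k3
    exact hj (k2 j)
  · refine Subset.antisymm (range_subset_iff.2 h2) fun p hp => ?_
    obtain rfl : B.pr p = y := hp
    obtain ⟨v, hv, k⟩ := B.surj' hi
    exact ⟨_, (h4 v hv).trans k⟩

theorem fib_conn (y : V.X) : IsConnected (B.pr ⁻¹' {y}) := by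
  obtain ⟨i, hi⟩ := E.cover y
  have h1 : Continuous fun q : P264Z.CP.V0 r => B.pt i y q.1 := continuous_iff_continuousAt.2 fun q =>
    ContinuousAt.comp (f := fun q : P264Z.CP.V0 r => (y, q.1)) (B.cont i y hi q.1 q.2)
      (continuousAt_const.prodMk continuous_subtype_val.continuousAt)
  have h2 : ∀ v : P264Z.CP.V0 r, B.pt i y (P264Z.CP.rep (P264Z.CP.mk v)).1 = B.pt i y v.1 := fun v =>
    let ⟨_, ha, k⟩ := P264Z.CP.exists_rep v
    k ▸ B.pt_smul hi ha v.2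
  rw [show B.pr ⁻¹' {y} = range fun q : P264Z.CP r => B.pt i y (P264Z.CP.rep q).1 from ?_]
  · exact isConnected_range (P264Z.CP.isOpenQuotientMap_mk.isQuotientMap.continuous_iff.2
      (h1.congr fun v => (h2 v).symm))
  · refine Subset.antisymm (fun p hp => ?_) (range_subset_iff.2 fun _ => B.pr_pt i y hi _)
    obtain rfl : B.pr p = y := hp
    obtain ⟨v, hv, k⟩ := B.surj' hi
    exact ⟨_, (h2 ⟨v, hv⟩).trans k⟩

theorem fibn : Fibn N n B.pr := ⟨B.hol, B.surj, ∅, thin_empty, fun y _ => B.fib_conn y⟩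

theorem conn_pre {S : Set V.X} (hS : IsClosed S) (h : IsConnected S) : IsConnected (B.pr ⁻¹' S) :=
  (B.hol.cont.isClosedMap.isQuotientMap B.hol.cont B.surj).isCoinducing.isConnected_preimage_of_isClosed
    B.fib_conn hS h

theorem conn [ConnectedSpace V.X] : ConnectedSpace B.P.X :=
  connectedSpace_iff_univ.2 (B.conn_pre isClosed_univ isConnected_univ)

theorem relAmple : RelAmple (XH N B.P.X) (XH n V.X) B.pr B.H := fun y => by
  obtain ⟨i, hi⟩ := E.cover y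
  refine ⟨E.U i, 1, r, fun a h p => B.x i h p a, E.isOpen i, hi, le_rfl, fun a =>
    ⟨fun h p k k' => B.xhol i h p k k' a, fun h h' p k k1 k2 =>
      (congrFun (B.xH i h h' p k k1 k2) a).trans
        (congrArg (· * B.x i h' p a) (pow_one _).symm)⟩,
    fun p h k k' => Function.ne_iff.1 (B.xnz i h p k k'), fun p q h h' k1 k2 k3 k4 k5 => ?_,
    fun (p : B.P.X) h l k1 k2 k3 (a : B.P.X → ℂ) ha => ?_⟩
  · by_contra! k
    exact k3 (B.ext k2 k1 k4 k5 ((prop_iff (B.xnz i h' q (k2 ▸ k1) k5)).2 k)).symm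
  have he := at_chart (n := n) (B.pr p)
  have he' := at_chart (n := N) p
  have h1 : ∀ {q : B.P.X}, B.pr q ∈ E.U i → q ∈ B.H.U h → B.x i h q l ≠ 0 →
      B.pt i (B.pr q) (fun j => B.x i h q j / B.x i h q l) = q := fun k k' k'' => by
    rw [ratio_eq, B.pt_x i h _ _ k k' (inv_ne_zero k'')]
  have h0 : (fun j => B.x i h p j / B.x i h p l) ≠ 0 := Function.ne_iff.2 ⟨l, div_ne_zero k3 k3⟩
  refine ⟨n, fun b y => chartAt (Cm n) (B.pr p) y b, fun t => a ((chartAt (Cm N) p).symm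
    (chartAt (Cm N) p (B.pt i ((chartAt (Cm n) (B.pr p)).symm t.1) t.2))), hol_chart he,
    AnalyticAt.fun_comp (g := fun t => a ((chartAt (Cm N) p).symm t)) ?_
      (B.an' k1 h0 he (by rwa [h1 k1 k2 k3])), ?_⟩
  · rw [he.left_inv, h1 k1 k2 k3]
    exact ha _ he'
  · refine ((B.near k1 k2).and (((B.xhol i h p k1 k2 l).ne_near k3).and ((at_near he').and
      (B.hol.cont.continuousAt.eventually (at_near he))))).mono fun q ⟨a1, a2, a3, a4⟩ => ?_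
    beta_reduce
    rw [a4.left_inv, h1 a1.1 a1.2 a2, a3.left_inv]

theorem kah (h : V.Kah) : B.P.Kah := (Pb.rela N n B.P V B.pr B.H B.hol B.lb B.relAmple).1 h

theorem pos {A : Bd V.X} (hA : IsLB n A) (h : Pos n A) :
    ∃ k₀ : ℕ, ∀ k ≥ k₀, Pos N (B.H.mul (pull B.pr (A.pow k))) :=
  (Pb.rela N n B.P V B.pr B.H B.hol B.lb B.relAmple).2 A hA h

theorem prj (h : V.Prj) : B.P.Prj :=
  let ⟨_, hA, h⟩ := h
  let ⟨k, hk⟩ := B.pos hA h
  ⟨_, lb_mul B.lb (B.hol.lb (lb_pow hA k)), hk k le_rfl⟩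

/-- a section of `E^* ⊗ L` is a section of `H ⊗ pr^* L` -/
theorem sec_dual {L : Bd V.X} {ι : L.ι → E.ι} (hι : ∀ b, L.U b ⊆ E.U (ι b))
    {t : L.ι → V.X → Cm (r + 1)} (ht : ∀ b, ∀ y ∈ L.U b, ∀ a, Hol n (fun y => t b y a) y)
    (chg : ∀ b b' y, y ∈ L.U b → y ∈ L.U b' →
      t b y ᵥ* E.T (ι b) (ι b') y = L.g b b' y • t b' y) :
    IsSec N (B.H.mul (pull B.pr L)) fun q p => t q.2 (B.pr p) ⬝ᵥ B.x (ι q.2) q.1 p :=
  isSec_of (fun q p hp => Hol.sum Finset.univ fun a _ =>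
    (B.hol.hol (ht _ _ hp.2 a)).mul (B.xhol _ _ p (hι _ hp.2) hp.1 a)) fun q q' p k k' => by
      rw [B.xE _ (ι q'.2) _ p (hι _ k.2) (hι _ k'.2) k.1, Matrix.dotProduct_mulVec,
        chg _ _ _ k.2 k'.2, B.xH _ _ q'.1 p (hι _ k'.2) k.1 k'.1, smul_dotProduct, dotProduct_smul,
        smul_smul, mul_comm]
      rfl

end PB

theorem PS.kah {r : ℕ} (S : PS r) : S.P.Kah := S.pos.kah S.lb P277Z.Pos.kah

theorem Mf.Prj.kah {n : ℕ} {V : Mf n} (h : V.Prj) : V.Kah :=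
  let ⟨_, hA, h⟩ := h
  h.kah hA P277Z.Pos.kah

namespace VB

variable {n r N : ℕ} {V : Mf n}

/-- the trivial bundle -/
def triv (ρ : ℕ) (V : Mf n) : VB ρ V where
  ι := Unit
  U _ := univ
  T _ _ _ := 1
  isOpen _ := isOpen_univ
  cover _ := ⟨(), trivial⟩
  hol _ _ y _ _ _ _ := hol_const _ y
  self _ _ _ := rfl
  cocycle _ _ _ _ _ _ _ := mul_one _

/-- the sum of line bundles with a common cover -/
def diag {ι : Type} {U : ι → Set V.X} (g : Fin (r + 1) → ι → ι → V.X → ℂ)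
    (h : ∀ a, IsLB n ⟨ι, U, g a⟩) : VB (r + 1) V where
  ι := ι
  U := U
  T i j y := Matrix.diagonal fun a => g a i j y
  isOpen := (h 0).isOpen
  cover := (h 0).cover
  hol i j y hi hj a b := by
    by_cases k : a = b
    · subst k
      simpa only [Matrix.diagonal_apply_eq] using lb_hol (h a) hi hj
    · simpa only [Matrix.diagonal_apply_ne _ k] using hol_const 0 y
  self i y hi := by
    rw [show (fun a => g a i i y) = fun _ => 1 from funext fun a => lb_self (h a) hi,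
      Matrix.diagonal_one]
  cocycle i j k y hi hj hk := by
    rw [Matrix.diagonal_mul_diagonal]
    exact congrArg _ (funext fun a => (h a).cocycle i j k y hi hj hk)

/-- the sum of the powers `L ^ w a` -/
def wt {L : Bd V.X} (h : IsLB n L) (w : Fin (r + 1) → ℕ) : VB (r + 1) V :=
  diag (fun a => (L.pow (w a)).g) fun a => lb_pow h (w a)

theorem diag_sec {ι : Type} {U : ι → Set V.X} {g : Fin (r + 1) → ι → ι → V.X → ℂ}
    {h : ∀ a, IsLB n ⟨ι, U, g a⟩} (B : PB (diag g h) N) (a : Fin (r + 1)) :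
    IsSec N (B.H.mul (pull B.pr ⟨ι, U, g a⟩)) fun q p => B.x q.2 q.1 p a :=
  isSec_of (fun q p hp => B.xhol _ _ p hp.2 hp.1 a) fun q q' p k k' => by
    rw [B.xH _ _ q'.1 p k.2 k.1 k'.1, B.xE _ q'.2 _ p k.2 k'.2 k'.1]
    exact (congrArg (B.H.g q.1 q'.1 p * ·) (Matrix.mulVec_diagonal _ _ a)).trans
      (mul_assoc _ _ _).symm

theorem wt_sec {L : Bd V.X} {h : IsLB n L} {w : Fin (r + 1) → ℕ} (B : PB (wt h w) N)
    (a : Fin (r + 1)) :
    IsSec N (B.H.mul (pull B.pr (L.pow (w a)))) fun q p => B.x q.2 q.1 p a := diag_sec B a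

theorem triv_sec (B : PB (triv (r + 1) V) N) (a : Fin (r + 1)) :
    IsSec N B.H fun h p => B.x () h p a :=
  isSec_of (fun h p hp => B.xhol _ h p trivial hp a) fun h h' p k k' =>
    congrFun (B.xH () h h' p trivial k k') a

/-- the second projection of the product -/
theorem triv_snd (B : PB (triv (r + 1) V) N) (S : PS r) : ∃ π : B.P.X → S.P.X, HolM N r π ∧
    (∀ h, ∀ p ∈ B.H.U h, π p = S.pt (B.x () h p)) ∧ (∀ y, ∀ v ≠ 0, π (B.pt () y v) = S.pt v) ∧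
      Bijective fun p => (B.pr p, π p) := by
  obtain ⟨π, h1, h2⟩ := S.lift_sec B.lb (triv_sec B) fun h p => B.xnz () h p trivial
  have h3 : ∀ y, ∀ v ≠ 0, π (B.pt () y v) = S.pt v := fun y v hv => by
    obtain ⟨h, hp⟩ := B.lb.cover (B.pt () y v)
    obtain ⟨c, hc, k⟩ := B.x_pt' (i := ()) trivial hv hp
    rw [h2 h _ hp, k, S.pt_smul hc hv]
  refine ⟨π, h1, h2, h3, fun p q k => ?_, fun q => ?_⟩
  · obtain ⟨h, hp⟩ := B.lb.cover p
    obtain ⟨h', hq⟩ := B.lb.cover q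
    refine B.ext (i := ()) (congrArg Prod.fst k).symm trivial hp hq ((S.pt_eq_iff
      (B.xnz () h p trivial hp) (B.xnz () h' q trivial hq)).1 ?_)
    rw [← h2 h p hp, ← h2 h' q hq]
    exact congrArg Prod.snd k
  · obtain ⟨v, hv, k⟩ := S.surj q.2
    exact ⟨_, Prod.ext (B.pr_pt () q.1 trivial v) ((h3 _ v hv).trans k)⟩

end VB

end Vale.Agent.P281Z
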